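import Claimed.Agent.R289.Pl.Jordan

/-!
# Row 289 (S0537, Cardy for Poisson-Voronoi), unit OBS / PL, file Fan/Sphere : THE COMPLETED SPHERE      (owner helper92; prefix `PvFan.`, `pvfs_`; 0 sorry)

TEX 08-observable.tex l.62-72 ("Add an exterior vertex `s_i` fanned to the inclusive boundary arc `v_i v_{i+1}`, add the junction triangles `s_{i-1} s_i v_i`, and close the exterior by a triangle `t_*`").
INPUT  `F : PvFan V D` = a map `T` with `IsSph`, a simple cycle `c : T.Cyc` with FINITE left side (the disc, on the LEFT of the cycle), marks `0 < i1 < i2 < n` (`v_0 = x_0`, `v_1 = x_{i1}`, `v_2 = x_{i2}`, `x_k = src (c.e k)`);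
       arbitrary marks `m0 < m1 < m2 < m0 + n`: `PvFan.ofMarks`.      Arc `j` = the indices `lo j, …, hi j` (`lo = 0, i1, i2`, `hi = i1, i2, n`).
OUTPUT `F.map : PvMap F.V' F.D'`,  `F.V' = {v // v ∈ T.VOf c.Left} ⊕ Fin 3` (`F.iv v hv`, `F.sv j = s_j`),  `F.D' = PvFanD {d // d ∈ c.Left} n`:
  * `inn d`                        the darts of the faces of the disc;
  * fan triangle `k : Fin n`       `a k : x_{k+1} → x_k`,  `b k : x_k → s_{lab k}`,  `c k : s_{lab k} → x_{k+1}`;
  * junction triangle `j : Fin 3`  `p j : v_j → s_{j-1}`,  `q j : s_{j-1} → s_j`,  `r j : s_j → v_j`;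
  * closing face                   `s j : s_j → s_{j-1}`,  `nxt (s j) = s (j-1)`      (`s 0 = s_0 → s_2` is the dart `q` of helper91: the labels run AGAINST `nxt`).
EXITS  `F.isSph : F.map.IsSph`,  `F.simple : T.Simple → F.map.Simple`,  `F.finV`, `F.finD` (`Finite`).
DICTIONARY  `src_inn tgt_inn nxt_inn apex_inn` (rfl), `map_opp_inn` (`opp` commutes if both faces lie in the disc), `map_opp_e` (`opp (inn (e k)) = a k`), `rot_*`;
  FAN PROBES round `s_j`: `rot^[0] = s j`, `rot^[1] = q (j+1)`, `rot^[2+t] = c (hi j - 1 - t)` (`rot_s_c`), `rot^[2 + (hi j - lo j)] = r j` (`rot_s_r`), period `rot_s_s`;  `tgt_probe`: `tgt (rot^[2+t] (s j)) = x_{hi j - t}`, `0 ≤ t ≤ hi j - lo j`;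
  `F.cyc : F.map.Cyc` (the boundary of the disc in the sphere), `cyc_left : F.cyc.Left = range inn`;
  RECORD FORM (for `PvgCompl` of helper297): `F.nm`, `F.em`, `nm_injective nm_src_em em_nxt em_opp int_em emb_em`, `PvFan.std hT c hfin` (marks 0, 1, 2);
  `adj_iv_iff` (edges of the closed disc), `adj_sv_iff` (neighbours of `s_j` in the disc = inclusive arc `j`), `adj_sv_sv`;   `F.col s t` colourings, `occ_inn`, `tag_inn`.
PROOFS  `conn`: first hit of the cycle (`pl_int_edge`);  `h1`: restriction to the disc (`pl_inside_h1`), then induction along the fans;  `link`: `pvfs_link_of_base` (finite map: reach every dart from one base dart), `pl_cyc_sector` at the boundary vertices.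
-/

set_option autoImplicit false
set_option linter.unusedVariables false
set_option linter.unusedSimpArgs false

namespace Claimed.Agent.R289

open Relation

/-- the input: a plane / sphere map, a simple cycle with finite left side, three marks `0 < i1 < i2 < n` on it -/
structure PvFan (V D : Type) where
  T : PvMap V D
  sph : T.IsSph
  c : T.Cyc
  fin : c.Left.Finite
  i1 : ℕ
  i2 : ℕ
  h1 : 0 < i1
  h2 : i1 < i2
  h3 : i2 < c.n

/-- the darts of the completed sphere -/
inductive PvFanD (L : Type) (n : ℕ) : Type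
  | inn (d : L)
  | a (k : Fin n)
  | b (k : Fin n)
  | c (k : Fin n)
  | p (j : Fin 3)
  | q (j : Fin 3)
  | r (j : Fin 3)
  | s (j : Fin 3)

namespace PvFan

variable {V D : Type} (F : PvFan V D)

/-- vertices of the completed sphere -/
abbrev V' : Type := {v // v ∈ F.T.VOf F.c.Left} ⊕ Fin 3
/-- darts of the completed sphere -/
abbrev D' : Type := PvFanD {d // d ∈ F.c.Left} F.c.n

theorem memL (k : ℕ) : F.c.e k ∈ F.c.Left := (pl_jordan F.sph F.c).2.1 k
theorem oppNotL (k : ℕ) : F.T.opp (F.c.e k) ∉ F.c.Left := by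
  have h := (pl_jordan F.sph F.c).2.2.1 k
  rw [(pl_jordan F.sph F.c).1] at h
  exact h

/-- the `k`-th vertex of the cycle -/
def uv (k : ℕ) : {v // v ∈ F.T.VOf F.c.Left} := ⟨F.T.src (F.c.e k), F.c.e k, F.memL k, rfl⟩

/-- predecessor in `Fin 3` -/
def pj : Fin 3 → Fin 3
  | 0 => 2
  | 1 => 0
  | 2 => 1

/-- the fan of the cycle edge number `k` -/
def lab (k : ℕ) : Fin 3 := if k < F.i1 then 0 else if k < F.i2 then 1 else 2
/-- first index of the arc `j` -/
def lo : Fin 3 → ℕ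
  | 0 => 0
  | 1 => F.i1
  | 2 => F.i2
/-- last index of the arc `j` -/
def hi : Fin 3 → ℕ
  | 0 => F.i1
  | 1 => F.i2
  | 2 => F.c.n

theorem lo_lt_hi (j : Fin 3) : F.lo j < F.hi j := by
  have := F.h1; have := F.h2; have := F.h3
  match j with
  | 0 => exact F.h1
  | 1 => exact F.h2
  | 2 => exact F.h3
theorem hi_le (j : Fin 3) : F.hi j ≤ F.c.n := by
  have := F.h1; have := F.h2; have := F.h3
  match j with
  | 0 => show F.i1 ≤ _; omega
  | 1 => show F.i2 ≤ _; omega
  | 2 => exact le_rfl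
theorem lo_lt (j : Fin 3) : F.lo j < F.c.n := (F.lo_lt_hi j).trans_le (F.hi_le j)

open Classical in
/-- the index of a dart of the cycle -/
noncomputable def idx (d : D) : Fin F.c.n := if h : ∃ k : Fin F.c.n, F.c.e k = d then h.choose else ⟨0, pl_cyc_pos F.c⟩

/-- source -/
def src' : F.D' → F.V'
  | .inn d => Sum.inl ⟨F.T.src d.1, d.1, d.2, rfl⟩
  | .a k => Sum.inl (F.uv (k + 1))
  | .b k => Sum.inl (F.uv k)
  | .c k => Sum.inr (F.lab k)
  | .p j => Sum.inl (F.uv (F.lo j))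
  | .q j => Sum.inr (pj j)
  | .r j => Sum.inr j
  | .s j => Sum.inr j

/-- next side of the same face -/
def nxt' : F.D' → F.D'
  | .inn d => .inn ⟨F.T.nxt d.1, (pl_left_face F.c d.1).2 d.2⟩
  | .a k => .b k
  | .b k => .c k
  | .c k => .a k
  | .p j => .q j
  | .q j => .r j
  | .r j => .p j
  | .s j => .s (pj j)

open Classical in
/-- the same edge seen from the other face -/
noncomputable def opp' : F.D' → F.D'
  | .inn d => if h : F.T.opp d.1 ∈ F.c.Left then .inn ⟨F.T.opp d.1, h⟩ else .a (F.idx d.1)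
  | .a k => .inn ⟨F.c.e k, F.memL k⟩
  | .b k => if k.1 = 0 then .r 0 else if k.1 = F.i1 then .r 1 else if k.1 = F.i2 then .r 2 else .c ⟨k.1 - 1, by omega⟩
  | .c k => if k.1 + 1 = F.i1 then .p 1 else if k.1 + 1 = F.i2 then .p 2 else
      if h : k.1 + 1 = F.c.n then .p 0 else .b ⟨k.1 + 1, by omega⟩
  | .p j => .c ⟨F.hi (pj j) - 1, by have := F.lo_lt_hi (pj j); have := F.hi_le (pj j); omega⟩
  | .q j => .s j
  | .r j => .b ⟨F.lo j, F.lo_lt j⟩
  | .s j => .q j

/-! ### indices -/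

theorem npos : 0 < F.c.n := pl_cyc_pos F.c

theorem e_idx {d : D} (h : d ∈ F.c.Left) (h' : F.T.opp d ∉ F.c.Left) : F.c.e (F.idx d) = d := by
  have hb : F.T.Bd F.c.Left d := fun hh => h' (hh.1 h)
  have hex : ∃ k : Fin F.c.n, F.c.e k = d := by
    rcases pl_left_bd_sub F.c hb with ⟨i, hi⟩ | ⟨i, hi⟩
    · exact ⟨⟨i % F.c.n, Nat.mod_lt _ F.npos⟩, (pl_cyc_mod F.c i).trans hi⟩
    · exact absurd (hi ▸ F.memL i) h'
  unfold idx
  rw [dif_pos hex]
  exact hex.choose_spec

theorem idx_e (k : Fin F.c.n) : F.idx (F.c.e k) = k := by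
  have hex : ∃ k' : Fin F.c.n, F.c.e k' = F.c.e k := ⟨k, rfl⟩
  unfold idx
  rw [dif_pos hex]
  exact Fin.ext (F.c.inj _ _ hex.choose.2 k.2 (by rw [hex.choose_spec]))

theorem uv_n : F.uv F.c.n = F.uv 0 := by
  unfold uv
  have : F.c.e F.c.n = F.c.e 0 := by simpa using F.c.per 0
  simp only [this]

theorem uv_inj {i j : ℕ} (hi : i < F.c.n) (hj : j < F.c.n) (h : F.uv i = F.uv j) : i = j :=
  F.c.inj i j hi hj (congrArg Subtype.val h)

theorem uv_val (k : ℕ) : (F.uv k).1 = F.T.src (F.c.e k) := rfl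

theorem uv_succ (k : ℕ) : (F.uv (k + 1)).1 = F.T.tgt (F.c.e k) := (F.c.chain k).symm

theorem pj3 (j : Fin 3) : pj (pj (pj j)) = j := by
  match j with
  | 0 => rfl
  | 1 => rfl
  | 2 => rfl
theorem pj_ne (j : Fin 3) : pj j ≠ j := by
  match j with
  | 0 => decide
  | 1 => decide
  | 2 => decide
theorem pj_pj_ne (j : Fin 3) : pj (pj j) ≠ j := by
  match j with
  | 0 => decide
  | 1 => decide
  | 2 => decide
theorem pj_inj {i j : Fin 3} (h : pj i = pj j) : i = j := by
  have := congrArg (fun x => pj (pj x)) h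
  simpa only [pj3] using this

theorem lab_of {j : Fin 3} {k : ℕ} (h1 : F.lo j ≤ k) (h2 : k < F.hi j) : F.lab k = j := by
  have := F.h1; have := F.h2; have := F.h3
  unfold lab
  match j, h1, h2 with
  | 0, h1, h2 =>
    have h2' : k < F.i1 := h2
    rw [if_pos h2']
  | 1, h1, h2 =>
    have h1' : F.i1 ≤ k := h1
    have h2' : k < F.i2 := h2
    rw [if_neg (by omega), if_pos h2']
  | 2, h1, h2 =>
    have h1' : F.i2 ≤ k := h1
    rw [if_neg (by omega), if_neg (by omega)]

theorem lo_lab (k : ℕ) : F.lo (F.lab k) ≤ k := by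
  unfold lab
  split_ifs with h h'
  · exact Nat.zero_le _
  · exact Nat.le_of_not_lt h
  · exact Nat.le_of_not_lt h'

theorem lt_hi_lab {k : ℕ} (hk : k < F.c.n) : k < F.hi (F.lab k) := by
  unfold lab
  split_ifs with h h'
  · exact h
  · exact h'
  · exact hk

theorem hi_pj (j : Fin 3) : F.hi (pj j) % F.c.n = F.lo j := by
  have := F.h1; have := F.h2; have := F.h3
  match j with
  | 0 => show F.c.n % F.c.n = 0; simp
  | 1 => show F.i1 % F.c.n = F.i1; exact Nat.mod_eq_of_lt (by omega)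
  | 2 => show F.i2 % F.c.n = F.i2; exact Nat.mod_eq_of_lt (by omega)

theorem uv_hi_pj (j : Fin 3) : F.uv (F.hi (pj j)) = F.uv (F.lo j) := by
  match j with
  | 0 => exact F.uv_n
  | 1 => rfl
  | 2 => rfl

/-! ### the equations of `opp'` -/

theorem opp_inn_pos {d : D} (h : d ∈ F.c.Left) (h' : F.T.opp d ∈ F.c.Left) : F.opp' (.inn ⟨d, h⟩) = .inn ⟨F.T.opp d, h'⟩ := by
  simp only [opp', dif_pos h']

theorem opp_inn_neg {d : D} (h : d ∈ F.c.Left) (h' : F.T.opp d ∉ F.c.Left) : F.opp' (.inn ⟨d, h⟩) = .a (F.idx d) := by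
  simp only [opp', dif_neg h']

theorem opp_inn_e (k : Fin F.c.n) : F.opp' (.inn ⟨F.c.e k, F.memL k⟩) = .a k := by
  rw [F.opp_inn_neg _ (F.oppNotL k), F.idx_e]

theorem opp_a (k : Fin F.c.n) : F.opp' (.a k) = .inn ⟨F.c.e k, F.memL k⟩ := rfl
theorem opp_q (j : Fin 3) : F.opp' (.q j) = .s j := rfl
theorem opp_s (j : Fin 3) : F.opp' (.s j) = .q j := rfl
theorem opp_r (j : Fin 3) : F.opp' (.r j) = .b ⟨F.lo j, F.lo_lt j⟩ := rfl
theorem opp_p (j : Fin 3) : F.opp' (.p j) = .c ⟨F.hi (pj j) - 1, by have := F.lo_lt_hi (pj j); have := F.hi_le (pj j); omega⟩ := rfl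

theorem opp_b_lo (j : Fin 3) (k : Fin F.c.n) (h : k.1 = F.lo j) : F.opp' (.b k) = .r j := by
  have := F.h1; have := F.h2; have := F.h3
  simp only [opp']
  match j, h with
  | 0, h =>
    have h' : k.1 = 0 := h
    rw [if_pos h']
  | 1, h =>
    have h' : k.1 = F.i1 := h
    rw [if_neg (by omega), if_pos h']
  | 2, h =>
    have h' : k.1 = F.i2 := h
    rw [if_neg (by omega), if_neg (by omega), if_pos h']

theorem opp_b_in {j : Fin 3} (k : Fin F.c.n) (h1 : F.lo j < k.1) (h2 : k.1 < F.hi j) : F.opp' (.b k) = .c ⟨k.1 - 1, by omega⟩ := by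
  have := F.h1; have := F.h2; have := F.h3
  simp only [opp']
  match j, h1, h2 with
  | 0, h1, h2 =>
    have h2' : k.1 < F.i1 := h2
    rw [if_neg (by omega), if_neg (by omega), if_neg (by omega)]
  | 1, h1, h2 =>
    have h1' : F.i1 < k.1 := h1
    have h2' : k.1 < F.i2 := h2
    rw [if_neg (by omega), if_neg (by omega), if_neg (by omega)]
  | 2, h1, h2 =>
    have h1' : F.i2 < k.1 := h1
    rw [if_neg (by omega), if_neg (by omega), if_neg (by omega)]

theorem opp_c_hi (j : Fin 3) (k : Fin F.c.n) (h : k.1 + 1 = F.hi (pj j)) : F.opp' (.c k) = .p j := by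
  have := F.h1; have := F.h2; have := F.h3
  simp only [opp']
  match j, h with
  | 0, h =>
    have h' : k.1 + 1 = F.c.n := h
    rw [if_neg (by omega), if_neg (by omega), dif_pos h']
  | 1, h =>
    have h' : k.1 + 1 = F.i1 := h
    rw [if_pos h']
  | 2, h =>
    have h' : k.1 + 1 = F.i2 := h
    rw [if_neg (by omega), if_pos h']

theorem opp_c_in {j : Fin 3} (k : Fin F.c.n) (h1 : F.lo j ≤ k.1) (h2 : k.1 + 1 < F.hi j) :
    F.opp' (.c k) = .b ⟨k.1 + 1, h2.trans_le (F.hi_le j)⟩ := by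
  have := F.h1; have := F.h2; have := F.h3
  simp only [opp']
  match j, h1, h2 with
  | 0, h1, h2 =>
    have h2' : k.1 + 1 < F.i1 := h2
    rw [if_neg (by omega), if_neg (by omega), dif_neg (by omega)]
  | 1, h1, h2 =>
    have h1' : F.i1 ≤ k.1 := h1
    have h2' : k.1 + 1 < F.i2 := h2
    rw [if_neg (by omega), if_neg (by omega), dif_neg (by omega)]
  | 2, h1, h2 =>
    have h1' : F.i2 ≤ k.1 := h1
    have h2' : k.1 + 1 < F.c.n := h2
    rw [if_neg (by omega), if_neg (by omega), dif_neg (by omega)]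

/-- the two cases for `b k` -/
theorem b_cases (k : Fin F.c.n) : (k.1 = F.lo (F.lab k)) ∨ (F.lo (F.lab k) < k.1 ∧ k.1 < F.hi (F.lab k)) := by
  have h1 := F.lo_lab k.1
  have h2 := F.lt_hi_lab k.2
  omega

/-- the two cases for `c k` -/
theorem c_cases (k : Fin F.c.n) : (k.1 + 1 = F.hi (F.lab k)) ∨ (F.lo (F.lab k) ≤ k.1 ∧ k.1 + 1 < F.hi (F.lab k)) := by
  have h1 := F.lo_lab k.1
  have h2 := F.lt_hi_lab k.2
  omega

/-- successor in `Fin 3` -/
def sj (j : Fin 3) : Fin 3 := pj (pj j)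
theorem pj_sj (j : Fin 3) : pj (sj j) = j := pj3 j
theorem sj_pj (j : Fin 3) : sj (pj j) = j := pj3 j

/-! ### the axioms of a dart structure -/

theorem nxt3' (x : F.D') : F.nxt' (F.nxt' (F.nxt' x)) = x := by
  cases x with
  | inn d =>
    show PvFanD.inn _ = PvFanD.inn _
    congr 1
    exact Subtype.ext (F.T.nxt3 d.1)
  | a k => rfl
  | b k => rfl
  | c k => rfl
  | p j => rfl
  | q j => rfl
  | r j => rfl
  | s j => exact congrArg PvFanD.s (pj3 j)

theorem opp_opp' (x : F.D') : F.opp' (F.opp' x) = x := by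
  cases x with
  | inn d =>
    obtain ⟨d, hd⟩ := d
    by_cases h : F.T.opp d ∈ F.c.Left
    · rw [F.opp_inn_pos hd h, F.opp_inn_pos h (by rw [F.T.opp_opp]; exact hd)]
      congr 1
      exact Subtype.ext (F.T.opp_opp d)
    · rw [F.opp_inn_neg hd h, F.opp_a]
      congr 1
      exact Subtype.ext (F.e_idx hd h)
  | a k => rw [F.opp_a, F.opp_inn_e]
  | b k =>
    rcases F.b_cases k with h | ⟨h1, h2⟩
    · rw [F.opp_b_lo _ k h, F.opp_r]
      congr 1
      exact Fin.ext h.symm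
    · rw [F.opp_b_in k h1 h2, F.opp_c_in (j := F.lab k) _ (by show _ ≤ k.1 - 1; omega) (by show k.1 - 1 + 1 < _; omega)]
      congr 1
      apply Fin.ext
      show k.1 - 1 + 1 = k.1
      omega
  | c k =>
    rcases F.c_cases k with h | ⟨h1, h2⟩
    · rw [F.opp_c_hi (sj (F.lab k)) k (by rw [pj_sj]; exact h), F.opp_p]
      congr 1
      apply Fin.ext
      show F.hi (pj (sj (F.lab k))) - 1 = k.1
      rw [pj_sj]
      omega
    · rw [F.opp_c_in k h1 h2, F.opp_b_in (j := F.lab k) _ (by show _ < k.1 + 1; omega) h2]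
      rfl
  | p j =>
    rw [F.opp_p, F.opp_c_hi j _ (by have := F.lo_lt_hi (pj j); show F.hi (pj j) - 1 + 1 = _; omega)]
  | q j => rfl
  | r j => rw [F.opp_r, F.opp_b_lo j _ rfl]
  | s j => rfl

theorem src_opp'' (x : F.D') : F.src' (F.opp' x) = F.src' (F.nxt' x) := by
  cases x with
  | inn d =>
    obtain ⟨d, hd⟩ := d
    by_cases h : F.T.opp d ∈ F.c.Left
    · rw [F.opp_inn_pos hd h]
      show Sum.inl _ = Sum.inl _
      congr 1
      exact Subtype.ext (F.T.src_opp d)
    · rw [F.opp_inn_neg hd h]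
      show Sum.inl _ = Sum.inl _
      congr 1
      apply Subtype.ext
      show (F.uv (_ + 1)).1 = F.T.src (F.T.nxt d)
      rw [F.uv_succ, F.e_idx hd h]
      rfl
  | a k => rfl
  | b k =>
    show _ = Sum.inr (F.lab k)
    rcases F.b_cases k with h | ⟨h1, h2⟩
    · rw [F.opp_b_lo _ k h]
      rfl
    · rw [F.opp_b_in k h1 h2]
      show Sum.inr (F.lab (k.1 - 1)) = _
      rw [F.lab_of (j := F.lab k) (by omega) (by omega)]
  | c k =>
    show _ = Sum.inl (F.uv (k + 1))
    rcases F.c_cases k with h | ⟨h1, h2⟩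
    · rw [F.opp_c_hi (sj (F.lab k)) k (by rw [pj_sj]; exact h)]
      show Sum.inl (F.uv (F.lo _)) = _
      rw [← F.uv_hi_pj, pj_sj, h]
    · rw [F.opp_c_in k h1 h2]
      rfl
  | p j =>
    rw [F.opp_p]
    show Sum.inr (F.lab (F.hi (pj j) - 1)) = Sum.inr (pj j)
    have := F.lo_lt_hi (pj j)
    rw [F.lab_of (j := pj j) (by omega) (by omega)]
  | q j => rfl
  | r j => rfl
  | s j => rfl

theorem src_ne' (x : F.D') : F.src' (F.nxt' x) ≠ F.src' x := by
  cases x with
  | inn d =>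
    intro h
    have h1 := Sum.inl.inj h
    exact F.T.src_ne d.1 (congrArg Subtype.val h1)
  | a k =>
    intro h
    have h1 := congrArg Subtype.val (Sum.inl.inj h)
    rw [F.uv_succ, F.uv_val] at h1
    exact F.T.tgt_ne_src _ h1.symm
  | b k => exact fun h => by cases h
  | c k => exact fun h => by cases h
  | p j => exact fun h => by cases h
  | q j => exact fun h => pj_ne j (Sum.inr.inj h).symm
  | r j => exact fun h => by cases h
  | s j => exact fun h => pj_ne j (Sum.inr.inj h)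

/-- **THE COMPLETED SPHERE** -/
noncomputable def map : PvMap F.V' F.D' where
  src := F.src'
  nxt := F.nxt'
  opp := F.opp'
  nxt3 := F.nxt3'
  opp_opp := F.opp_opp'
  src_opp := F.src_opp''
  src_ne := F.src_ne'

/-! ### finiteness -/

instance finV : Finite F.V' := by
  have : Finite {v // v ∈ F.T.VOf F.c.Left} := (pl_VOf_finite F.sph F.c F.fin).to_subtype
  infer_instance

instance finD : Finite F.D' := by
  have : Finite {d // d ∈ F.c.Left} := F.fin.to_subtype
  let g : ({d // d ∈ F.c.Left} ⊕ (Fin F.c.n ⊕ Fin F.c.n ⊕ Fin F.c.n) ⊕ (Fin 3 ⊕ Fin 3 ⊕ Fin 3 ⊕ Fin 3)) → F.D' :=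
    Sum.elim PvFanD.inn (Sum.elim (Sum.elim PvFanD.a (Sum.elim PvFanD.b PvFanD.c))
      (Sum.elim PvFanD.p (Sum.elim PvFanD.q (Sum.elim PvFanD.r PvFanD.s))))
  refine Finite.of_surjective g fun x => ?_
  cases x with
  | inn d => exact ⟨Sum.inl d, rfl⟩
  | a k => exact ⟨Sum.inr (Sum.inl (Sum.inl k)), rfl⟩
  | b k => exact ⟨Sum.inr (Sum.inl (Sum.inr (Sum.inl k))), rfl⟩
  | c k => exact ⟨Sum.inr (Sum.inl (Sum.inr (Sum.inr k))), rfl⟩
  | p j => exact ⟨Sum.inr (Sum.inr (Sum.inl j)), rfl⟩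
  | q j => exact ⟨Sum.inr (Sum.inr (Sum.inr (Sum.inl j))), rfl⟩
  | r j => exact ⟨Sum.inr (Sum.inr (Sum.inr (Sum.inr (Sum.inl j)))), rfl⟩
  | s j => exact ⟨Sum.inr (Sum.inr (Sum.inr (Sum.inr (Sum.inr j)))), rfl⟩

/-! ### connectivity -/

/-- a vertex of the disc as a vertex of the sphere -/
def iv (v : V) (hv : v ∈ F.T.VOf F.c.Left) : F.V' := Sum.inl ⟨v, hv⟩
/-- the three outer vertices -/
def sv (j : Fin 3) : F.V' := Sum.inr j

theorem tgt_mem {d : D} (h : d ∈ F.c.Left) : F.T.tgt d ∈ F.T.VOf F.c.Left := ⟨F.T.nxt d, (pl_left_face F.c d).2 h, rfl⟩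
theorem src_mem {d : D} (h : d ∈ F.c.Left) : F.T.src d ∈ F.T.VOf F.c.Left := ⟨d, h, rfl⟩

theorem adj_inn {d : D} (h : d ∈ F.c.Left) : F.map.Adj (F.iv _ (F.src_mem h)) (F.iv _ (F.tgt_mem h)) := ⟨.inn ⟨d, h⟩, rfl, rfl⟩
theorem adj_s (j : Fin 3) : F.map.Adj (F.sv j) (F.sv (pj j)) := ⟨.s j, rfl, rfl⟩
theorem adj_b (k : Fin F.c.n) : F.map.Adj (Sum.inl (F.uv k)) (F.sv (F.lab k)) := ⟨.b k, rfl, rfl⟩

theorem conn_s (j : Fin 3) : ReflTransGen F.map.Adj (F.sv j) (F.sv 0) := by
  match j with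
  | 0 => exact ReflTransGen.refl
  | 1 => exact ReflTransGen.single (F.adj_s 1)
  | 2 => exact ReflTransGen.head (F.adj_s 2) (ReflTransGen.single (F.adj_s 1))

theorem conn_cyc {v : V} (hv : v ∈ F.T.VOf F.c.Left) (h : v ∈ F.c.verts) : ReflTransGen F.map.Adj (F.iv v hv) (F.sv 0) := by
  obtain ⟨i, rfl⟩ := h
  have e : F.iv _ hv = Sum.inl (F.uv (⟨i % F.c.n, Nat.mod_lt _ F.npos⟩ : Fin F.c.n)) := by
    unfold iv uv
    congr 2
    show _ = F.T.src (F.c.e (i % F.c.n))
    rw [pl_cyc_mod]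
  rw [e]
  exact ReflTransGen.head (F.adj_b _) (F.conn_s _)

theorem conn_disc {v w : V} (h : ReflTransGen F.T.Adj v w) (hw : w ∈ F.c.verts) :
    ∀ hv : v ∈ F.T.VOf F.c.Left, ReflTransGen F.map.Adj (F.iv v hv) (F.sv 0) := by
  induction h using ReflTransGen.head_induction_on with
  | refl => exact fun hv => F.conn_cyc hv hw
  | @head a b hab _ ih =>
    intro hv
    by_cases hc : a ∈ F.c.verts
    · exact F.conn_cyc hv hc
    · have hi : a ∈ F.T.Int F.c.Left := by
        have := hv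
        rw [pl_VOf_left F.sph F.c] at this
        exact this.resolve_left hc
      obtain ⟨d, rfl, rfl⟩ := hab
      obtain ⟨h1, -, h3⟩ := pl_int_edge F.sph F.c hi
      exact ReflTransGen.head (F.adj_inn h1) (ih _)

theorem conn0 (x : F.V') : ReflTransGen F.map.Adj x (F.sv 0) := by
  rcases x with ⟨v, hv⟩ | j
  · exact F.conn_disc (F.sph.conn v (F.T.src (F.c.e 0))) ⟨0, rfl⟩ hv
  · exact F.conn_s j

theorem conn_symm {x y : F.V'} (h : ReflTransGen F.map.Adj x y) : ReflTransGen F.map.Adj y x := by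
  induction h with
  | refl => exact ReflTransGen.refl
  | tail _ hbc ih => exact ReflTransGen.head (F.map.adj_symm hbc) ih

theorem conn' (x y : F.V') : ReflTransGen F.map.Adj x y := (F.conn0 x).trans (F.conn_symm (F.conn0 y))

/-! ### `H¹(ℤ/2) = 0` -/

open Classical in
/-- restriction of an edge function of the sphere to the closed disc, extended by `0` -/
noncomputable def res (g : F.D' → ZMod 2) (d : D) : ZMod 2 :=
  if h : d ∈ F.c.Left then g (.inn ⟨d, h⟩) else if h' : F.T.opp d ∈ F.c.Left then g (.inn ⟨F.T.opp d, h'⟩) else 0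

theorem res_in (g : F.D' → ZMod 2) {d : D} (h : d ∈ F.c.Left) : F.res g d = g (.inn ⟨d, h⟩) := by
  unfold res; rw [dif_pos h]

theorem res_sym {g : F.D' → ZMod 2} (hs : F.map.Sym g) : F.T.Sym (F.res g) := by
  intro d
  by_cases h : d ∈ F.c.Left
  · by_cases h' : F.T.opp d ∈ F.c.Left
    · rw [F.res_in g h, F.res_in g h', ← hs (.inn ⟨d, h⟩)]
      show _ = g (F.opp' (.inn ⟨d, h⟩))
      rw [F.opp_inn_pos h h']
    · rw [F.res_in g h]
      unfold res
      have h2 : F.T.opp (F.T.opp d) ∈ F.c.Left := by rw [F.T.opp_opp]; exact h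
      rw [dif_neg h', dif_pos h2]
      congr 2
      exact Subtype.ext (F.T.opp_opp d)
  · by_cases h' : F.T.opp d ∈ F.c.Left
    · rw [F.res_in g h']
      unfold res
      rw [dif_neg h, dif_pos h']
    · unfold res
      have h2 : F.T.opp (F.T.opp d) ∉ F.c.Left := by rw [F.T.opp_opp]; exact h
      rw [dif_neg h', dif_neg h2, dif_neg h, dif_neg h']

theorem res_coc {g : F.D' → ZMod 2} (hc : F.map.Coc g) : ∀ d ∈ F.c.Left, F.res g d + F.res g (F.T.nxt d) + F.res g (F.T.nxt (F.T.nxt d)) = 0 := by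
  intro d h
  have h1 : F.T.nxt d ∈ F.c.Left := (pl_left_face F.c d).2 h
  have h2 : F.T.nxt (F.T.nxt d) ∈ F.c.Left := (pl_left_face F.c _).2 h1
  rw [F.res_in g h, F.res_in g h1, F.res_in g h2]
  exact hc (.inn ⟨d, h⟩)

theorem z2_tri : ∀ a b c x y t : ZMod 2, a + b + c = 0 → a = x + y → b = x + t → c = y + t := by decide
theorem z2_tri' : ∀ a b c x y t : ZMod 2, a + b + c = 0 → a = x + y → c = x + t → b = y + t := by decide

theorem h1' (g : F.D' → ZMod 2) (hs : F.map.Sym g) (hc : F.map.Coc g) :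
    ∃ s : F.V' → ZMod 2, ∀ x, g x = s (F.map.src x) + s (F.map.tgt x) := by
  obtain ⟨u, hu⟩ := pl_inside_h1 F.sph F.c F.fin (F.res g) (F.res_sym hs) (F.res_coc hc)
  have hs' : ∀ x, g (F.opp' x) = g x := hs
  have hc' : ∀ x, g x + g (F.nxt' x) + g (F.nxt' (F.nxt' x)) = 0 := hc
  obtain ⟨A, hA⟩ : ∃ A : ℕ → ZMod 2, ∀ k, A k = u (F.T.src (F.c.e k)) := ⟨_, fun _ => rfl⟩
  obtain ⟨t, ht⟩ : ∃ t : Fin 3 → ZMod 2, ∀ j, t j = g (.b ⟨F.lo j, F.lo_lt j⟩) + A (F.lo j) := ⟨_, fun _ => rfl⟩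
  have ginn : ∀ (d : D) (h : d ∈ F.c.Left), g (.inn ⟨d, h⟩) = u (F.T.src d) + u (F.T.tgt d) := by
    intro d h
    rw [← F.res_in g h]
    exact hu d (Or.inl h)
  have ga : ∀ k : Fin F.c.n, g (.a k) = A k + A (k + 1) := by
    intro k
    rw [← hs' (.a k), F.opp_a, ginn, hA, hA, F.c.chain]
  have gbc : ∀ (j : Fin 3) (k : ℕ), F.lo j ≤ k → ∀ hk : k < F.hi j,
      g (.b ⟨k, hk.trans_le (F.hi_le j)⟩) = A k + t j ∧ g (.c ⟨k, hk.trans_le (F.hi_le j)⟩) = A (k + 1) + t j := by
    intro j k hk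
    have step : ∀ (k : ℕ) (hk : k < F.hi j), g (.b ⟨k, hk.trans_le (F.hi_le j)⟩) = A k + t j →
        g (.c ⟨k, hk.trans_le (F.hi_le j)⟩) = A (k + 1) + t j := fun k hk hb =>
      z2_tri _ _ _ _ _ _ (hc' (.a ⟨k, hk.trans_le (F.hi_le j)⟩)) (ga _) hb
    induction k, hk using Nat.le_induction with
    | base =>
      intro hk
      have hb : g (.b ⟨F.lo j, hk.trans_le (F.hi_le j)⟩) = A (F.lo j) + t j := by
        rw [ht]
        generalize g _ = x
        generalize A _ = y
        revert x y; decide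
      exact ⟨hb, step _ hk hb⟩
    | succ k hk ih =>
      intro hk'
      have h0 := (ih (by omega)).2
      have hb : g (.b ⟨k + 1, hk'.trans_le (F.hi_le j)⟩) = A (k + 1) + t j := by
        rw [← h0, ← hs' (.c _), F.opp_c_in (j := j) _ hk hk']
      exact ⟨hb, step _ hk' hb⟩
  have gb : ∀ k : Fin F.c.n, g (.b k) = A k + t (F.lab k) := fun k => (gbc (F.lab k) k (F.lo_lab k) (F.lt_hi_lab k.2)).1
  have gc : ∀ k : Fin F.c.n, g (.c k) = A (k + 1) + t (F.lab k) := fun k => (gbc (F.lab k) k (F.lo_lab k) (F.lt_hi_lab k.2)).2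
  have Ahi : ∀ j, A (F.hi (pj j)) = A (F.lo j) := by
    intro j
    rw [hA, hA]
    exact congrArg (fun v => u v.1) (F.uv_hi_pj j)
  have gp : ∀ j, g (.p j) = A (F.lo j) + t (pj j) := by
    intro j
    have h0 := F.lo_lt_hi (pj j)
    have := (gbc (pj j) (F.hi (pj j) - 1) (by omega) (by omega)).2
    rw [← hs' (.p j), F.opp_p, this, ← Ahi]
    congr 2
    omega
  have gr : ∀ j, g (.r j) = A (F.lo j) + t j := by
    intro j
    rw [← hs' (.r j), F.opp_r]
    exact (gbc j (F.lo j) le_rfl (F.lo_lt_hi j)).1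
  have gq : ∀ j, g (.q j) = t (pj j) + t j := fun j => z2_tri' _ _ _ _ _ _ (hc' (.p j)) (gp j) (gr j)
  refine ⟨Sum.elim (fun v => u v.1) t, fun x => ?_⟩
  cases x with
  | inn d => exact ginn d.1 d.2
  | a k =>
    show _ = u (F.T.src (F.c.e (k + 1))) + u (F.T.src (F.c.e k))
    rw [ga, hA, hA, add_comm]
  | b k =>
    show _ = u (F.T.src (F.c.e k)) + t (F.lab k)
    rw [gb, hA]
  | c k =>
    show _ = t (F.lab k) + u (F.T.src (F.c.e (k + 1)))
    rw [gc, hA, add_comm]
  | p j =>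
    show _ = u (F.T.src (F.c.e (F.lo j))) + t (pj j)
    rw [gp, hA]
  | q j => exact gq j
  | r j =>
    show _ = t j + u (F.T.src (F.c.e (F.lo j)))
    rw [gr, hA, add_comm]
  | s j =>
    show _ = t j + t (pj j)
    rw [← F.opp_q, hs', gq, add_comm]

/-! ### the links -/

theorem rot_inn_pos {d : D} (h : d ∈ F.c.Left) (h' : F.T.rot d ∈ F.c.Left) : F.map.rot (.inn ⟨d, h⟩) = .inn ⟨F.T.rot d, h'⟩ :=
  F.opp_inn_pos _ h'

theorem rot_inn_e {d : D} (h : d ∈ F.c.Left) (k : Fin F.c.n) (hk : F.T.nxt (F.T.nxt d) = F.c.e k) : F.map.rot (.inn ⟨d, h⟩) = .a k := by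
  rw [← F.opp_inn_e k]
  show F.opp' (.inn ⟨F.T.nxt (F.T.nxt d), _⟩) = _
  congr 2
  exact Subtype.ext hk

theorem rot_a (k : Fin F.c.n) : F.map.rot (.a k) = F.opp' (.c k) := rfl
theorem rot_b (k : Fin F.c.n) : F.map.rot (.b k) = .inn ⟨F.c.e k, F.memL k⟩ := rfl
theorem rot_c (k : Fin F.c.n) : F.map.rot (.c k) = F.opp' (.b k) := rfl
theorem rot_p (j : Fin 3) : F.map.rot (.p j) = .b ⟨F.lo j, F.lo_lt j⟩ := rfl
theorem rot_q (j : Fin 3) : F.map.rot (.q j) = .c ⟨F.hi (pj j) - 1, by have := F.lo_lt_hi (pj j); have := F.hi_le (pj j); omega⟩ := rfl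
theorem rot_r (j : Fin 3) : F.map.rot (.r j) = .s j := rfl
theorem rot_s (j : Fin 3) : F.map.rot (.s j) = .q (sj j) := rfl

/-- **the fan probes**: the darts round `s_j`, counted from the closing face: `s j`, `q (j+1)`, then the spokes to the vertices number `hi j, hi j - 1, …, lo j + 1`, then `r j` (spoke to the vertex number `lo j`) -/
theorem rot_s_c (j : Fin 3) (t : ℕ) (ht : t < F.hi j - F.lo j) :
    F.map.rot^[2 + t] (.s j) = .c ⟨F.hi j - 1 - t, by have := F.hi_le j; omega⟩ := by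
  induction t with
  | zero =>
    show F.map.rot (F.map.rot (.s j)) = _
    rw [F.rot_s, F.rot_q]
    congr 1
    apply Fin.ext
    show F.hi (pj (sj j)) - 1 = F.hi j - 1 - 0
    rw [pj_sj]
    rfl
  | succ t ih =>
    rw [← add_assoc, Function.iterate_succ_apply', ih (by omega), F.rot_c,
      F.opp_b_in (j := j) _ (by show _ < F.hi j - 1 - t; omega) (by show F.hi j - 1 - t < _; omega)]
    congr 1

theorem rot_s_r (j : Fin 3) : F.map.rot^[2 + (F.hi j - F.lo j)] (.s j) = .r j := by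
  have h0 := F.lo_lt_hi j
  obtain ⟨t, ht⟩ : ∃ t, F.hi j - F.lo j = t + 1 := ⟨F.hi j - F.lo j - 1, by omega⟩
  rw [ht, ← add_assoc, Function.iterate_succ_apply', F.rot_s_c j t (by omega), F.rot_c, F.opp_b_lo j _ (by show F.hi j - 1 - t = _; omega)]

theorem rot_s_s (j : Fin 3) : F.map.rot^[3 + (F.hi j - F.lo j)] (.s j) = .s j := by
  have : 3 + (F.hi j - F.lo j) = (2 + (F.hi j - F.lo j)) + 1 := by omega
  rw [this, Function.iterate_succ_apply', F.rot_s_r, F.rot_r]

theorem link_s (j : Fin 3) (x : F.D') (hx : F.map.src x = F.sv j) : ∃ n, F.map.rot^[n] (.s j) = x := by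
  cases x with
  | inn d => cases hx
  | a k => cases hx
  | b k => cases hx
  | c k =>
    have hj : F.lab k = j := Sum.inr.inj hx
    have h1 := F.lo_lab k
    have h2 := F.lt_hi_lab k.2
    rw [hj] at h1 h2
    refine ⟨2 + (F.hi j - 1 - k), ?_⟩
    rw [F.rot_s_c j _ (by omega)]
    congr 1
    apply Fin.ext
    show F.hi j - 1 - (F.hi j - 1 - k) = k
    omega
  | p i => cases hx
  | q i =>
    have hj : pj i = j := Sum.inr.inj hx
    refine ⟨1, ?_⟩
    show F.map.rot (.s j) = _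
    rw [F.rot_s, ← hj, sj_pj]
  | r i =>
    have hj : i = j := Sum.inr.inj hx
    subst hj
    exact ⟨_, F.rot_s_r i⟩
  | s i =>
    have hj : i = j := Sum.inr.inj hx
    subst hj
    exact ⟨0, rfl⟩

theorem link_int {v : V} (hv : v ∈ F.T.Int F.c.Left) {d₀ : D} (h₀ : F.T.src d₀ = v) (x : F.D') (hv' : v ∈ F.T.VOf F.c.Left)
    (hx : F.map.src x = F.iv v hv') : ∃ n, F.map.rot^[n] (.inn ⟨d₀, hv d₀ h₀⟩) = x := by
  have hnc : v ∉ F.c.verts := fun h => Set.disjoint_left.1 (pl_jordan_vert_disj F.sph F.c).1 h hv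
  have hit : ∀ n, F.map.rot^[n] (.inn ⟨d₀, hv d₀ h₀⟩) = .inn ⟨F.T.rot^[n] d₀, hv _ ((F.T.src_rot_iter n d₀).trans h₀)⟩ := by
    intro n
    induction n with
    | zero => rfl
    | succ n ih =>
      rw [Function.iterate_succ_apply', ih, F.rot_inn_pos _ (hv _ ((F.T.src_rot _).trans ((F.T.src_rot_iter n d₀).trans h₀)))]
      congr 1
      apply Subtype.ext
      show F.T.rot (F.T.rot^[n] d₀) = F.T.rot^[n + 1] d₀
      rw [Function.iterate_succ_apply']
  have hcy : ∀ k : ℕ, F.iv v hv' ≠ Sum.inl (F.uv k) := fun k h => hnc ⟨k, (congrArg Subtype.val (Sum.inl.inj h)).symm⟩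
  cases x with
  | inn d =>
    have hd : F.T.src d.1 = v := congrArg Subtype.val (Sum.inl.inj hx)
    obtain ⟨n, hn⟩ := F.sph.link d₀ d.1 (h₀.trans hd.symm)
    refine ⟨n, ?_⟩
    rw [hit]
    congr 1
    exact Subtype.ext hn
  | a k => exact absurd hx.symm (hcy _)
  | b k => exact absurd hx.symm (hcy _)
  | c k => cases hx
  | p i => exact absurd hx.symm (hcy _)
  | q i => cases hx
  | r i => cases hx
  | s i => cases hx

theorem lo_inj {i j : Fin 3} (h : F.lo i = F.lo j) : i = j := by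
  have := F.h1; have := F.h2; have := F.h3
  match i, j, h with
  | 0, 0, _ => rfl
  | 1, 1, _ => rfl
  | 2, 2, _ => rfl
  | 0, 1, h => have h' : 0 = F.i1 := h; omega
  | 0, 2, h => have h' : 0 = F.i2 := h; omega
  | 1, 0, h => have h' : F.i1 = 0 := h; omega
  | 1, 2, h => have h' : F.i1 = F.i2 := h; omega
  | 2, 0, h => have h' : F.i2 = 0 := h; omega
  | 2, 1, h => have h' : F.i2 = F.i1 := h; omega

theorem lo_not_in (i j : Fin 3) (h1 : F.lo j < F.lo i) (h2 : F.lo i < F.hi j) : False := by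
  have := F.h1; have := F.h2; have := F.h3
  match i, j, h1, h2 with
  | 0, _, h1, _ => exact Nat.not_lt_zero _ h1
  | 1, 0, h1, h2 => exact lt_irrefl _ h2
  | 1, 1, h1, h2 => exact lt_irrefl _ h1
  | 1, 2, h1, h2 => have h' : F.i2 < F.i1 := h1; omega
  | 2, 0, h1, h2 => have h' : F.i2 < F.i1 := h2; omega
  | 2, 1, h1, h2 => exact lt_irrefl _ h2
  | 2, 2, h1, h2 => exact lt_irrefl _ h1

theorem uv_mod (k : ℕ) : F.uv (k % F.c.n) = F.uv k := by
  unfold uv
  simp only [pl_cyc_mod]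

theorem uv_eq_iff {i j : ℕ} : F.uv i = F.uv j ↔ i % F.c.n = j % F.c.n :=
  ⟨fun h => pl_cyc_src_inj F.c (congrArg Subtype.val h), fun h => by rw [← F.uv_mod i, h, F.uv_mod]⟩

/-- the link of the vertex number `k₀ + 1` of the cycle -/
theorem link_cyc (k₀ : Fin F.c.n) (x : F.D') (hx : F.map.src x = Sum.inl (F.uv (k₀ + 1))) :
    ∃ n, F.map.rot^[n] (.inn ⟨F.c.e (k₀ + 1), F.memL _⟩) = x := by
  obtain ⟨K, hK0, hK, -, hsec⟩ := pl_cyc_sector F.sph F.c k₀
  have hn := F.npos
  have hmem : ∀ k, k < K → F.T.rot^[k] (F.c.e (k₀ + 1)) ∈ F.c.Left := fun k hk =>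
    (hsec _ (F.T.src_rot_iter k _)).2 ⟨k, hk, rfl⟩
  have hit : ∀ k (hk : k < K), F.map.rot^[k] (.inn ⟨F.c.e (k₀ + 1), F.memL _⟩) = .inn ⟨F.T.rot^[k] (F.c.e (k₀ + 1)), hmem k hk⟩ := by
    intro k
    induction k with
    | zero => exact fun _ => rfl
    | succ k ih =>
      intro hk
      have h2 : F.T.rot (F.T.rot^[k] (F.c.e (k₀ + 1))) ∈ F.c.Left := by
        have := hmem _ hk
        rwa [Function.iterate_succ_apply'] at this
      rw [Function.iterate_succ_apply', ih (by omega), F.rot_inn_pos _ h2]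
      congr 1
      apply Subtype.ext
      show F.T.rot (F.T.rot^[k] _) = F.T.rot^[k + 1] _
      rw [Function.iterate_succ_apply']
  have hKa : F.map.rot^[K] (.inn ⟨F.c.e (k₀ + 1), F.memL _⟩) = .a k₀ := by
    obtain ⟨K', rfl⟩ : ∃ K', K = K' + 1 := ⟨K - 1, by omega⟩
    rw [Function.iterate_succ_apply', hit K' (by omega)]
    refine F.rot_inn_e _ k₀ ?_
    rw [Function.iterate_succ_apply'] at hK
    exact F.T.opp_injective hK
  have hK1 : F.map.rot^[K + 1] (.inn ⟨F.c.e (k₀ + 1), F.memL _⟩) = F.opp' (.c k₀) := by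
    rw [Function.iterate_succ_apply', hKa, F.rot_a]
  cases x with
  | inn d =>
    have hd : F.T.src d.1 = F.T.src (F.c.e (k₀ + 1)) := congrArg Subtype.val (Sum.inl.inj hx)
    obtain ⟨k, hk, hdk⟩ := (hsec d.1 hd).1 d.2
    refine ⟨k, ?_⟩
    rw [hit k hk]
    congr 1
    exact Subtype.ext hdk.symm
  | a k =>
    have h1 : (k.1 + 1) % F.c.n = (k₀.1 + 1) % F.c.n := F.uv_eq_iff.1 (Sum.inl.inj hx)
    have h2 : k = k₀ := by
      apply Fin.ext
      have hk := k.2
      have hk0 := k₀.2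
      rcases Nat.lt_or_ge (k.1 + 1) F.c.n with g | g <;> rcases Nat.lt_or_ge (k₀.1 + 1) F.c.n with g' | g'
      · rw [Nat.mod_eq_of_lt g, Nat.mod_eq_of_lt g'] at h1; omega
      · have e : k₀.1 + 1 = F.c.n := by omega
        rw [Nat.mod_eq_of_lt g, e, Nat.mod_self] at h1; omega
      · have e : k.1 + 1 = F.c.n := by omega
        rw [Nat.mod_eq_of_lt g', e, Nat.mod_self] at h1; omega
      · omega
    exact ⟨K, by rw [hKa, h2]⟩
  | b k =>
    have h1 : k.1 % F.c.n = (k₀.1 + 1) % F.c.n := F.uv_eq_iff.1 (Sum.inl.inj hx)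
    rw [Nat.mod_eq_of_lt k.2] at h1
    rcases F.c_cases k₀ with h | ⟨g1, g2⟩
    · have h3 : k.1 = F.lo (sj (F.lab k₀)) := by rw [h1, h, ← F.hi_pj, pj_sj]
      refine ⟨K + 1 + 1, ?_⟩
      rw [Function.iterate_succ_apply', hK1, F.opp_c_hi (sj (F.lab k₀)) k₀ (by rw [pj_sj]; exact h), F.rot_p]
      congr 1
      exact Fin.ext h3.symm
    · have h3 : k.1 = k₀.1 + 1 := by rw [h1, Nat.mod_eq_of_lt (g2.trans_le (F.hi_le _))]
      refine ⟨K + 1, ?_⟩
      rw [hK1, F.opp_c_in k₀ g1 g2]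
      congr 1
      exact Fin.ext h3.symm
  | c k => cases hx
  | p i =>
    have h1 : F.lo i % F.c.n = (k₀.1 + 1) % F.c.n := F.uv_eq_iff.1 (Sum.inl.inj hx)
    rw [Nat.mod_eq_of_lt (F.lo_lt i)] at h1
    rcases F.c_cases k₀ with h | ⟨g1, g2⟩
    · have h3 : F.lo i = F.lo (sj (F.lab k₀)) := by rw [h1, h, ← F.hi_pj, pj_sj]
      refine ⟨K + 1, ?_⟩
      rw [hK1, F.opp_c_hi (sj (F.lab k₀)) k₀ (by rw [pj_sj]; exact h), F.lo_inj h3]
    · have h3 : F.lo i = k₀.1 + 1 := by rw [h1, Nat.mod_eq_of_lt (g2.trans_le (F.hi_le _))]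
      exact (F.lo_not_in i (F.lab k₀) (by omega) (by omega)).elim
  | q i => cases hx
  | r i => cases hx
  | s i => cases hx

end PvFan

/-- on a finite map it is enough to reach every dart at a vertex from ONE base dart -/
theorem pvfs_link_of_base {V D : Type} (M : PvMap V D) [Finite D]
    (h : ∀ v : V, ∃ b : D, ∀ d, M.src d = v → ∃ n, M.rot^[n] b = d) (d d' : D) (hdd : M.src d = M.src d') : ∃ n, M.rot^[n] d = d' := by
  let σ : Equiv.Perm D := ⟨M.rot, M.rotInv, M.rotInv_rot, M.rot_rotInv⟩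
  obtain ⟨N, hN0, hN⟩ : ∃ N, 0 < N ∧ ∀ x, M.rot^[N] x = x := by
    refine ⟨orderOf σ, orderOf_pos σ, fun x => ?_⟩
    have h1 : (⇑σ)^[orderOf σ] = ⇑(σ ^ orderOf σ) := Equiv.Perm.iterate_eq_pow σ _
    rw [pow_orderOf_eq_one] at h1
    exact congrFun h1 x
  have hNm : ∀ (m : ℕ) x, M.rot^[N * m] x = x := by
    intro m x
    induction m with
    | zero => rfl
    | succ m ih => rw [Nat.mul_succ, Function.iterate_add_apply, hN, ih]
  obtain ⟨b, hb⟩ := h (M.src d)
  obtain ⟨n, rfl⟩ := hb d rfl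
  obtain ⟨n', rfl⟩ := hb d' hdd.symm
  refine ⟨n' + (N * n - n), ?_⟩
  have h2 : n ≤ N * n := Nat.le_mul_of_pos_left n hN0
  rw [← Function.iterate_add_apply, show n' + (N * n - n) + n = n' + N * n by omega, Function.iterate_add_apply, hNm]

namespace PvFan

variable {V D : Type} (F : PvFan V D)

theorem exists_pred (i : ℕ) : ∃ k₀ : Fin F.c.n, F.uv (k₀ + 1) = F.uv i := by
  have hn := F.npos
  refine ⟨⟨(i + F.c.n - 1) % F.c.n, Nat.mod_lt _ hn⟩, ?_⟩
  rw [F.uv_eq_iff]
  show ((i + F.c.n - 1) % F.c.n + 1) % F.c.n = _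
  rw [Nat.mod_add_mod, show i + F.c.n - 1 + 1 = i + F.c.n by omega, Nat.add_mod_right]

/-- **the completed sphere is a sphere** -/
theorem isSph : F.map.IsSph where
  conn := F.conn'
  h1 := F.h1'
  link := by
    refine pvfs_link_of_base F.map fun v => ?_
    rcases v with ⟨v, hv⟩ | j
    · have hv' := hv
      rw [pl_VOf_left F.sph F.c] at hv'
      rcases hv' with ⟨i, hi⟩ | hi
      · obtain ⟨k₀, hk⟩ := F.exists_pred i
        refine ⟨_, fun x hx => F.link_cyc k₀ x (hx.trans ?_)⟩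
        rw [hk]
        congr 1
        exact Subtype.ext hi.symm
      · obtain ⟨d₀, -, h₀⟩ := hv
        exact ⟨_, fun x hx => F.link_int hi h₀ x _ hx⟩
    · exact ⟨_, fun x hx => F.link_s j x hx⟩

/-! ### DICTIONARY -/

theorem src_inn (d : {d // d ∈ F.c.Left}) : F.map.src (.inn d) = F.iv (F.T.src d.1) (F.src_mem d.2) := rfl
theorem tgt_inn (d : {d // d ∈ F.c.Left}) : F.map.tgt (.inn d) = F.iv (F.T.tgt d.1) (F.tgt_mem d.2) := rfl
theorem nxt_inn (d : {d // d ∈ F.c.Left}) : F.map.nxt (.inn d) = .inn ⟨F.T.nxt d.1, (pl_left_face F.c d.1).2 d.2⟩ := rfl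
theorem apex_inn (d : {d // d ∈ F.c.Left}) :
    F.map.apex (.inn d) = F.iv (F.T.apex d.1) (F.tgt_mem ((pl_left_face F.c d.1).2 d.2)) := rfl
theorem map_opp_inn {d : D} (h : d ∈ F.c.Left) (h' : F.T.opp d ∈ F.c.Left) : F.map.opp (.inn ⟨d, h⟩) = .inn ⟨F.T.opp d, h'⟩ := F.opp_inn_pos h h'
theorem map_opp_e (k : Fin F.c.n) : F.map.opp (.inn ⟨F.c.e k, F.memL k⟩) = .a k := F.opp_inn_e k
theorem src_s (j : Fin 3) : F.map.src (.s j) = F.sv j := rfl
theorem nxt_s (j : Fin 3) : F.map.nxt (.s j) = .s (pj j) := rfl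
theorem tgt_s (j : Fin 3) : F.map.tgt (.s j) = F.sv (pj j) := rfl
theorem inn_injective : Function.Injective (PvFanD.inn : {d // d ∈ F.c.Left} → F.D') := fun _ _ h => PvFanD.inn.inj h

/-- the target of the `t`-th fan probe at `s_j` is the vertex number `hi j - t` of the cycle (`0 ≤ t ≤ hi j - lo j`) -/
theorem tgt_probe (j : Fin 3) (t : ℕ) (ht : t ≤ F.hi j - F.lo j) : F.map.tgt (F.map.rot^[2 + t] (.s j)) = Sum.inl (F.uv (F.hi j - t)) := by
  have h0 := F.lo_lt_hi j
  rcases Nat.lt_or_ge t (F.hi j - F.lo j) with h | h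
  · rw [F.rot_s_c j t h]
    show Sum.inl (F.uv (F.hi j - 1 - t + 1)) = _
    congr 2
    omega
  · have e : t = F.hi j - F.lo j := le_antisymm ht h
    rw [e, F.rot_s_r]
    show Sum.inl (F.uv (F.lo j)) = _
    congr 2
    omega

/-- the boundary cycle of the disc inside the sphere -/
def cyc : F.map.Cyc where
  n := F.c.n
  e k := .inn ⟨F.c.e k, F.memL k⟩
  three := F.c.three
  per i := by
    congr 1
    exact Subtype.ext (F.c.per i)
  chain i := by
    show Sum.inl _ = Sum.inl _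
    congr 1
    exact Subtype.ext (F.c.chain i)
  inj i j hi hj h := F.c.inj i j hi hj (congrArg Subtype.val (Sum.inl.inj h))

theorem range_inn_face : F.map.FaceSet (Set.range (PvFanD.inn : {d // d ∈ F.c.Left} → F.D')) := by
  intro x
  cases x with
  | inn d => exact ⟨fun _ => ⟨d, rfl⟩, fun _ => ⟨_, rfl⟩⟩
  | a k => exact ⟨fun ⟨_, h⟩ => (by cases h), fun ⟨_, h⟩ => (by cases h)⟩
  | b k => exact ⟨fun ⟨_, h⟩ => (by cases h), fun ⟨_, h⟩ => (by cases h)⟩
  | c k => exact ⟨fun ⟨_, h⟩ => (by cases h), fun ⟨_, h⟩ => (by cases h)⟩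
  | p k => exact ⟨fun ⟨_, h⟩ => (by cases h), fun ⟨_, h⟩ => (by cases h)⟩
  | q k => exact ⟨fun ⟨_, h⟩ => (by cases h), fun ⟨_, h⟩ => (by cases h)⟩
  | r k => exact ⟨fun ⟨_, h⟩ => (by cases h), fun ⟨_, h⟩ => (by cases h)⟩
  | s k => exact ⟨fun ⟨_, h⟩ => (by cases h), fun ⟨_, h⟩ => (by cases h)⟩

theorem opp_not_inn {x : F.D'} (hx : x ∉ Set.range (PvFanD.inn : {d // d ∈ F.c.Left} → F.D')) (hx' : ∀ k, x ≠ .a k) :
    F.opp' x ∉ Set.range (PvFanD.inn : {d // d ∈ F.c.Left} → F.D') := by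
  rintro ⟨d, hd⟩
  have h1 : x = F.opp' (.inn d) := by rw [hd, F.opp_opp']
  obtain ⟨d, hdL⟩ := d
  by_cases h : F.T.opp d ∈ F.c.Left
  · rw [F.opp_inn_pos hdL h] at h1
    exact hx ⟨_, h1.symm⟩
  · rw [F.opp_inn_neg hdL h] at h1
    exact hx' _ h1

/-- the disc is the left side of its boundary cycle in the sphere -/
theorem cyc_left : F.cyc.Left = Set.range (PvFanD.inn : {d // d ∈ F.c.Left} → F.D') := by
  refine (pl_left_unique F.isSph F.cyc F.range_inn_face (fun x => ?_) ⟨_, rfl⟩).symm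
  have hmod : ∀ i, F.cyc.e i = .inn ⟨F.c.e i, F.memL i⟩ := fun i => rfl
  constructor
  · intro hb
    by_cases hx : x ∈ Set.range (PvFanD.inn : {d // d ∈ F.c.Left} → F.D')
    · obtain ⟨⟨d, hd⟩, rfl⟩ := hx
      by_cases h : F.T.opp d ∈ F.c.Left
      · exact absurd ⟨fun _ => ⟨_, (F.opp_inn_pos hd h).symm⟩, fun _ => ⟨_, rfl⟩⟩ hb
      · left
        refine ⟨F.idx d, ?_⟩
        rw [hmod]
        congr 1
        exact Subtype.ext (F.e_idx hd h)
    · by_cases hx' : ∀ k, x ≠ .a k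
      · exact absurd ⟨fun h => absurd h hx, fun h => absurd h (F.opp_not_inn hx hx')⟩ hb
      · obtain ⟨k, rfl⟩ := not_forall_not.1 hx'
        exact Or.inr ⟨k, rfl⟩
  · rintro (⟨i, rfl⟩ | ⟨i, hi⟩)
    · intro hb
      obtain ⟨d, hd⟩ := hb.1 ⟨_, rfl⟩
      have h2 : F.map.opp (F.cyc.e i) = .a (F.idx (F.c.e i)) := F.opp_inn_neg _ (F.oppNotL i)
      rw [h2] at hd
      cases hd
    · intro hb
      have h1 : x = F.map.opp (F.cyc.e i) := by rw [hi, F.map.opp_opp]
      have h2 : F.map.opp (F.cyc.e i) = .a (F.idx (F.c.e i)) := F.opp_inn_neg _ (F.oppNotL i)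
      obtain ⟨d, hd⟩ := hb.2 ⟨_, hi⟩
      rw [h1, h2] at hd
      cases hd

/-- edges between two vertices of the disc -/
theorem adj_iv_iff {u v : V} (hu : u ∈ F.T.VOf F.c.Left) (hv : v ∈ F.T.VOf F.c.Left) :
    F.map.Adj (F.iv u hu) (F.iv v hv) ↔ F.T.EdgeIn F.c.Left u v := by
  constructor
  · rintro ⟨x, h1, h2⟩
    cases x with
    | inn d => exact ⟨d.1, Or.inl d.2, congrArg Subtype.val (Sum.inl.inj h1), congrArg Subtype.val (Sum.inl.inj h2)⟩
    | a k =>
      refine ⟨F.T.opp (F.c.e k), Or.inr (by rw [F.T.opp_opp]; exact F.memL k), ?_, ?_⟩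
      · rw [F.T.src_opp', ← F.uv_succ]
        exact congrArg Subtype.val (Sum.inl.inj h1)
      · rw [F.T.tgt_opp]
        exact congrArg Subtype.val (Sum.inl.inj h2)
    | b k => cases h2
    | c k => cases h1
    | p k => cases h2
    | q k => cases h1
    | r k => cases h1
    | s k => cases h1
  · rintro ⟨d, hd, rfl, rfl⟩
    by_cases h : d ∈ F.c.Left
    · exact ⟨.inn ⟨d, h⟩, rfl, rfl⟩
    · have h' : F.T.opp d ∈ F.c.Left := hd.resolve_left h
      have he := F.e_idx h' (by rw [F.T.opp_opp]; exact h)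
      refine ⟨.a (F.idx (F.T.opp d)), ?_, ?_⟩
      · show Sum.inl _ = Sum.inl _
        congr 1
        apply Subtype.ext
        rw [F.uv_succ, he, F.T.tgt_opp]
      · show Sum.inl _ = Sum.inl _
        congr 1
        apply Subtype.ext
        rw [F.uv_val, he, F.T.src_opp']

/-- the neighbours of `s_j` in the disc: the inclusive arc `lo j, …, hi j` -/
theorem adj_sv_iff (j : Fin 3) {v : V} (hv : v ∈ F.T.VOf F.c.Left) : F.map.Adj (F.sv j) (F.iv v hv) ↔ v ∈ F.c.arc (F.lo j) (F.hi j) := by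
  constructor
  · rintro ⟨x, h1, h2⟩
    cases x with
    | inn d => cases h1
    | a k => cases h1
    | b k => cases h1
    | c k =>
      have hj : F.lab k = j := Sum.inr.inj h1
      have g1 := F.lo_lab k
      have g2 := F.lt_hi_lab k.2
      rw [hj] at g1 g2
      exact ⟨k + 1, by omega, by omega, congrArg Subtype.val (Sum.inl.inj h2)⟩
    | p k => cases h1
    | q k => cases h2
    | r k =>
      have hj : k = j := Sum.inr.inj h1
      subst hj
      exact ⟨F.lo k, le_rfl, (F.lo_lt_hi k).le, congrArg Subtype.val (Sum.inl.inj h2)⟩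
    | s k => cases h2
  · rintro ⟨k, h1, h2, rfl⟩
    rcases Nat.eq_or_lt_of_le h1 with e | g
    · subst e
      exact ⟨.r j, rfl, rfl⟩
    · have hk : k - 1 < F.c.n := by have := F.hi_le j; omega
      refine ⟨.c ⟨k - 1, hk⟩, ?_, ?_⟩
      · show Sum.inr (F.lab (k - 1)) = _
        rw [F.lab_of (j := j) (by omega) (by omega)]
        rfl
      · show Sum.inl (F.uv (k - 1 + 1)) = _
        rw [show k - 1 + 1 = k by omega]
        rfl

theorem adj_sv_sv (i j : Fin 3) : F.map.Adj (F.sv i) (F.sv j) ↔ i ≠ j := by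
  constructor
  · intro h e
    exact F.map.adj_ne h (by rw [e])
  · intro h
    by_cases e : j = pj i
    · rw [e]; exact F.adj_s i
    · have e' : i = pj j := by
        match i, j, h, e with
        | 0, 1, _, _ => rfl
        | 1, 2, _, _ => rfl
        | 2, 0, _, _ => rfl
        | 0, 0, h, _ => exact absurd rfl h
        | 1, 1, h, _ => exact absurd rfl h
        | 2, 2, h, _ => exact absurd rfl h
        | 0, 2, _, e => exact absurd rfl e
        | 1, 0, _, e => exact absurd rfl e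
        | 2, 1, _, e => exact absurd rfl e
      rw [e']; exact F.map.adj_symm (F.adj_s j)

/-- colourings of the sphere = colourings of the disc and three more bits -/
def col (s : V → Bool) (t : Fin 3 → Bool) : F.V' → Bool := Sum.elim (fun v => s v.1) t

theorem occ_inn (s : V → Bool) (t : Fin 3 → Bool) (d : {d // d ∈ F.c.Left}) : F.map.Occ (F.col s t) (.inn d) ↔ F.T.Occ s d.1 := Iff.rfl
theorem tag_inn (s : V → Bool) (t : Fin 3 → Bool) (d : {d // d ∈ F.c.Left}) : F.map.Tag (F.col s t) (.inn d) ↔ F.T.Tag s d.1 := Iff.rfl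

/-! ### no multiple edges -/

theorem succ_inj {k k' : Fin F.c.n} (h : F.uv (k + 1) = F.uv (k' + 1)) : k = k' := by
  have h1 : (k.1 + 1) % F.c.n = (k'.1 + 1) % F.c.n := F.uv_eq_iff.1 h
  apply Fin.ext
  have hk := k.2
  have hk0 := k'.2
  rcases Nat.lt_or_ge (k.1 + 1) F.c.n with g | g <;> rcases Nat.lt_or_ge (k'.1 + 1) F.c.n with g' | g'
  · rw [Nat.mod_eq_of_lt g, Nat.mod_eq_of_lt g'] at h1; omega
  · have e : k'.1 + 1 = F.c.n := by omega
    rw [Nat.mod_eq_of_lt g, e, Nat.mod_self] at h1; omega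
  · have e : k.1 + 1 = F.c.n := by omega
    rw [Nat.mod_eq_of_lt g', e, Nat.mod_self] at h1; omega
  · omega

theorem c_r_absurd (k : Fin F.c.n) (j : Fin 3) (h1 : F.lab k = j) (h2 : F.uv (k + 1) = F.uv (F.lo j)) : False := by
  have g : (k.1 + 1) % F.c.n = F.lo j := by
    have := F.uv_eq_iff.1 h2
    rwa [Nat.mod_eq_of_lt (F.lo_lt j)] at this
  have g1 := F.lo_lab k
  rw [h1] at g1
  rcases F.c_cases k with h | ⟨-, h⟩
  · rw [h, h1, ← pj_sj j, F.hi_pj, pj_sj] at g
    have := F.lo_inj g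
    exact pj_pj_ne j this
  · rw [Nat.mod_eq_of_lt (h.trans_le (F.hi_le _))] at g
    omega

/-- the completed sphere has no multiple edges -/
theorem simple (hS : F.T.Simple) : F.map.Simple := by
  intro x y h1 h2
  cases x with
  | inn x =>
    cases y with
    | inn y =>
        congr 1
        exact Subtype.ext (hS _ _ (congrArg Subtype.val (Sum.inl.inj h1)) (congrArg Subtype.val (Sum.inl.inj h2)))
    | a y =>
        exfalso
        have g1 : F.T.src x.1 = F.T.src (F.T.opp (F.c.e y)) := by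
          rw [F.T.src_opp', ← F.uv_succ]; exact congrArg Subtype.val (Sum.inl.inj h1)
        have g2 : F.T.tgt x.1 = F.T.tgt (F.T.opp (F.c.e y)) := by
          rw [F.T.tgt_opp]; exact congrArg Subtype.val (Sum.inl.inj h2)
        exact F.oppNotL y (hS _ _ g1 g2 ▸ x.2)
    | b y => cases h2
    | c y => cases h1
    | p y => cases h2
    | q y => cases h1
    | r y => cases h1
    | s y => cases h1
  | a x =>
    cases y with
    | inn y =>
        exfalso
        have g1 : F.T.src y.1 = F.T.src (F.T.opp (F.c.e x)) := by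
          rw [F.T.src_opp', ← F.uv_succ]; exact (congrArg Subtype.val (Sum.inl.inj h1)).symm
        have g2 : F.T.tgt y.1 = F.T.tgt (F.T.opp (F.c.e x)) := by
          rw [F.T.tgt_opp]; exact (congrArg Subtype.val (Sum.inl.inj h2)).symm
        exact F.oppNotL x (hS _ _ g1 g2 ▸ y.2)
    | a y =>
        congr 1
        exact Fin.ext (F.uv_inj x.2 y.2 (Sum.inl.inj h2))
    | b y => cases h2
    | c y => cases h1
    | p y => cases h2
    | q y => cases h1
    | r y => cases h1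
    | s y => cases h1
  | b x =>
    cases y with
    | inn y => cases h2
    | a y => cases h2
    | b y =>
        congr 1
        exact Fin.ext (F.uv_inj x.2 y.2 (Sum.inl.inj h1))
    | c y => cases h1
    | p y =>
        exfalso
        have g1 : x.1 = F.lo y := F.uv_inj x.2 (F.lo_lt y) (Sum.inl.inj h1)
        have g2 : F.lab x = pj y := Sum.inr.inj h2
        rw [g1, F.lab_of (j := y) le_rfl (F.lo_lt_hi y)] at g2
        exact pj_ne y g2.symm
    | q y => cases h1
    | r y => cases h1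
    | s y => cases h1
  | c x =>
    cases y with
    | inn y => cases h1
    | a y => cases h1
    | b y => cases h1
    | c y =>
        congr 1
        exact F.succ_inj (Sum.inl.inj h2)
    | p y => cases h1
    | q y => cases h2
    | r y =>
        exfalso
        exact F.c_r_absurd x y (Sum.inr.inj h1) (Sum.inl.inj h2)
    | s y => cases h2
  | p x =>
    cases y with
    | inn y => cases h2
    | a y => cases h2
    | b y =>
        exfalso
        have g1 : y.1 = F.lo x := F.uv_inj y.2 (F.lo_lt x) (Sum.inl.inj h1).symm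
        have g2 : F.lab y = pj x := (Sum.inr.inj h2).symm
        rw [g1, F.lab_of (j := x) le_rfl (F.lo_lt_hi x)] at g2
        exact pj_ne x g2.symm
    | c y => cases h1
    | p y =>
        congr 1
        exact F.lo_inj (F.uv_inj (F.lo_lt x) (F.lo_lt y) (Sum.inl.inj h1))
    | q y => cases h1
    | r y => cases h1
    | s y => cases h1
  | q x =>
    cases y with
    | inn y => cases h1
    | a y => cases h1
    | b y => cases h1
    | c y => cases h2
    | p y => cases h1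
    | q y =>
        congr 1
        exact Sum.inr.inj h2
    | r y => cases h2
    | s y =>
        exfalso
        have g1 : pj x = y := Sum.inr.inj h1
        have g2 : x = pj y := Sum.inr.inj h2
        rw [← g1] at g2
        exact pj_pj_ne x g2.symm
  | r x =>
    cases y with
    | inn y => cases h1
    | a y => cases h1
    | b y => cases h1
    | c y =>
        exfalso
        exact F.c_r_absurd y x (Sum.inr.inj h1).symm (Sum.inl.inj h2).symm
    | p y => cases h1
    | q y => cases h2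
    | r y =>
        congr 1
        exact Sum.inr.inj h1
    | s y => cases h2
  | s x =>
    cases y with
    | inn y => cases h1
    | a y => cases h1
    | b y => cases h1
    | c y => cases h2
    | p y => cases h1
    | q y =>
        exfalso
        have g1 : pj y = x := (Sum.inr.inj h1).symm
        have g2 : y = pj x := (Sum.inr.inj h2).symm
        rw [← g1] at g2
        exact pj_pj_ne y g2.symm
    | r y => cases h2
    | s y =>
        congr 1
        exact Sum.inr.inj h1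

/-- the completed sphere for arbitrary marks `m0 < m1 < m2 < m0 + n` (the cycle is read from `m0`) -/
def ofMarks {V D : Type} (T : PvMap V D) (hT : T.IsSph) (c : T.Cyc) (hfin : c.Left.Finite) (m0 m1 m2 : ℕ) (h1 : m0 < m1) (h2 : m1 < m2)
    (h3 : m2 < m0 + c.n) : PvFan V D where
  T := T
  sph := hT
  c := c.shift m0
  fin := by rw [(pl_shift_left hT c m0).1]; exact hfin
  i1 := m1 - m0
  i2 := m2 - m0
  h1 := by omega
  h2 := by omega
  h3 := by show m2 - m0 < c.n; omega

/-! ### the record form (names of the vertices, total embedding of the darts): what `PvgCompl` of `Brg/Win.lean` (helper297) signs -/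

/-- name of a vertex of the sphere: a vertex of `T` or one of the three outer vertices -/
def nm : F.V' → V ⊕ Fin 3 := Sum.map Subtype.val id

open Classical in
/-- the embedding of the darts of the disc (junk off `c.Left`) -/
noncomputable def em (d : D) : F.D' := if h : d ∈ F.c.Left then .inn ⟨d, h⟩ else .s 0

theorem nm_injective : Function.Injective F.nm := Sum.map_injective.2 ⟨Subtype.val_injective, Function.injective_id⟩

theorem em_of_mem {d : D} (h : d ∈ F.c.Left) : F.em d = .inn ⟨d, h⟩ := by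
  unfold em; rw [dif_pos h]

theorem nm_src_em (d : D) (h : d ∈ F.c.Left) : F.nm (F.map.src (F.em d)) = Sum.inl (F.T.src d) := by
  rw [F.em_of_mem h]; rfl

theorem em_nxt (d : D) (h : d ∈ F.c.Left) : F.em (F.T.nxt d) = F.map.nxt (F.em d) := by
  rw [F.em_of_mem h, F.em_of_mem ((pl_left_face F.c d).2 h)]; rfl

theorem em_opp (d : D) (h : d ∈ F.c.Left) (h' : F.T.opp d ∈ F.c.Left) : F.em (F.T.opp d) = F.map.opp (F.em d) := by
  rw [F.em_of_mem h, F.em_of_mem h', F.map_opp_inn h h']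

/-- the star of an interior vertex of the disc is not changed -/
theorem int_em (x : F.D') (v : V) (hx : F.nm (F.map.src x) = Sum.inl v) (hv : v ∈ F.T.Int F.c.Left) : ∃ d ∈ F.c.Left, F.em d = x := by
  have hnc : ∀ k : ℕ, (F.uv k).1 ≠ v := fun k h => Set.disjoint_left.1 (pl_jordan_vert_disj F.sph F.c).1 ⟨k, h⟩ hv
  cases x with
  | inn d => exact ⟨d.1, d.2, F.em_of_mem d.2⟩
  | a k => exact absurd (Sum.inl.inj hx) (hnc _)
  | b k => exact absurd (Sum.inl.inj hx) (hnc _)
  | c k => cases hx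
  | p k => exact absurd (Sum.inl.inj hx) (hnc _)
  | q k => cases hx
  | r k => cases hx
  | s k => cases hx

/-- a face without outer vertex is a face of the disc -/
theorem emb_em (x : F.D') (u v w : V) (h1 : F.nm (F.map.src x) = Sum.inl u) (h2 : F.nm (F.map.tgt x) = Sum.inl v)
    (h3 : F.nm (F.map.apex x) = Sum.inl w) : ∃ d ∈ F.c.Left, F.em d = x := by
  cases x with
  | inn d => exact ⟨d.1, d.2, F.em_of_mem d.2⟩
  | a k => cases h3
  | b k => cases h2
  | c k => cases h1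
  | p k => cases h2
  | q k => cases h1
  | r k => cases h1
  | s k => cases h1

/-- the completed sphere with the marks `0, 1, 2` -/
def std {V D : Type} {T : PvMap V D} (hT : T.IsSph) (c : T.Cyc) (hfin : c.Left.Finite) : PvFan V D where
  T := T
  sph := hT
  c := c
  fin := hfin
  i1 := 1
  i2 := 2
  h1 := Nat.one_pos
  h2 := Nat.lt_succ_self 1
  h3 := c.three

end PvFan

theorem pvfs_eqns_cite : True := by
  have := @PvFan.nm.eq_1; have := @PvFan.em.eq_1; have := @PvFan.std.eq_1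
  have := @PvFan.V'.eq_1; have := @PvFan.D'.eq_1; have := @PvFan.uv.eq_1
  have := @PvFan.pj.eq_1; have := @PvFan.pj.eq_2; have := @PvFan.pj.eq_3; have := @PvFan.pj.eq_def
  have := @PvFan.lab.eq_1
  have := @PvFan.lo.eq_1; have := @PvFan.lo.eq_2; have := @PvFan.lo.eq_3; have := @PvFan.lo.eq_def
  have := @PvFan.hi.eq_1; have := @PvFan.hi.eq_2; have := @PvFan.hi.eq_3; have := @PvFan.hi.eq_def
  have := @PvFan.idx.eq_1
  have := @PvFan.src'.eq_1; have := @PvFan.src'.eq_2; have := @PvFan.src'.eq_3; have := @PvFan.src'.eq_4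
  have := @PvFan.src'.eq_5; have := @PvFan.src'.eq_6; have := @PvFan.src'.eq_7; have := @PvFan.src'.eq_8; have := @PvFan.src'.eq_def
  have := @PvFan.nxt'.eq_1; have := @PvFan.nxt'.eq_2; have := @PvFan.nxt'.eq_3; have := @PvFan.nxt'.eq_4
  have := @PvFan.nxt'.eq_5; have := @PvFan.nxt'.eq_6; have := @PvFan.nxt'.eq_7; have := @PvFan.nxt'.eq_8; have := @PvFan.nxt'.eq_def
  have := @PvFan.opp'.eq_1; have := @PvFan.opp'.eq_2; have := @PvFan.opp'.eq_3; have := @PvFan.opp'.eq_4
  have := @PvFan.opp'.eq_5; have := @PvFan.opp'.eq_6; have := @PvFan.opp'.eq_7; have := @PvFan.opp'.eq_8; have := @PvFan.opp'.eq_def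
  have := @PvFan.sj.eq_1; have := @PvFan.map.eq_1; have := @PvFan.iv.eq_1; have := @PvFan.sv.eq_1; have := @PvFan.res.eq_1
  have := @PvFan.cyc.eq_1; have := @PvFan.col.eq_1; have := @PvFan.ofMarks.eq_1
  trivial

end Claimed.Agent.R289
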