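-- KEEP
import Claimed.Agent.R289.S1.Defs
import Claimed.Agent.R289.Pl.Wall
import Claimed.Agent.R289.S1.Orth

/-!
# Row 289 (S0537, Cardy for Poisson-Voronoi), box P82 = Prop 8.2 + the EXACT finite identities of the observable      (head + prover helper91; prefix `pv82_`, defs `PvMap.obsN labN offN obsF`)

Setting: ANY finite `PvMap` with `IsSph` and ANY dart `q` (the closing face `t_*`; in the fan completion `q = s₀ → s₂`, `nxt q = s₂ → s₁`, `nxt² q = s₁ → s₀`; the labels `w_i = ω^i` of the paper run AGAINST `nxt`).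

* `obsN d e`  number of colourings for which `d` is a tag and the probe `e` lies in the component reached through the missing spoke `d`   (`= 2^|V| E[1{tag d} H_λ(e)]`)
* `obsF q e = 4/2^|V| (N q e + ω̄ N (nxt q) e + ω N (nxt² q) e)`   the observable `F_m^η` of (8.1)
* (X1) `pv82_sum`     `4 (N q e + N (nxt q) e + N (nxt² q) e) = 2^|V|` for EVERY probe: the three coefficients are the barycentric coordinates.   Proof: `orth_count` (anti-circulant form of Prop 1.2) + dual connectivity.
* (X2) `pv82_side`    `N d e = 0` as soon as the edge of `e` has the end `apex d`   (side constraint at the fan probes)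
* (X4) `pv82_orth`    `F e + ω F (nxt e) + ω̄ F (nxt² e) = 0` at every face off the closing face
* (X5) `pv82_face_sum` sums against coefficients with zero face sums see only the tags of `λ_*`
* (X3) `pv82_cross`   the coefficient at the fan probe `rot^[k] q` is the probability of a black vertex crossing
-/

set_option autoImplicit false

namespace Claimed.Agent.R289

open Relation

namespace PvMap

variable {V D : Type} (T : PvMap V D)

open Classical in
/-- number of colourings for which `d` is a tag and the probe `e` lies in the component reached through `d` -/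
noncomputable def obsN [Fintype V] (d e : D) : ℕ := (Finset.univ.filter fun s : V → Bool => T.Tag s d ∧ T.InComp s d e).card

open Classical in
/-- number of colourings for which `d`, `e` are tags of one label -/
noncomputable def labN [Fintype V] (d e : D) : ℕ := (Finset.univ.filter fun s : V → Bool => T.SameLab s d e).card

open Classical in
/-- the part of `obsN` for which the face of `e` is off the wall -/
noncomputable def offN [Fintype V] (d e : D) : ℕ := (Finset.univ.filter fun s : V → Bool => T.Tag s d ∧ T.InComp s d e ∧ ¬ T.Wall s d e).card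

/-- **the observable** `F_m^η` (8.1), `q` = dart `s₀ → s₂` of the closing face -/
noncomputable def obsF [Fintype V] (q e : D) : ℂ :=
  4 / 2 ^ Fintype.card V * ((T.obsN q e : ℂ) + (starRingEnd ℂ) pvOm * (T.obsN (T.nxt q) e : ℂ) + pvOm * (T.obsN (T.nxt (T.nxt q)) e : ℂ))

/-- the label part of the observable: `4 E[w_* 1{e is a tag of λ_*}]` -/
noncomputable def obsL [Fintype V] (q e : D) : ℂ :=
  4 / 2 ^ Fintype.card V * ((T.labN q e : ℂ) + (starRingEnd ℂ) pvOm * (T.labN (T.nxt q) e : ℂ) + pvOm * (T.labN (T.nxt (T.nxt q)) e : ℂ))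

/-- the part of the observable which is constant on the face of `e` -/
noncomputable def obsO [Fintype V] (q e : D) : ℂ :=
  4 / 2 ^ Fintype.card V * ((T.offN q e : ℂ) + (starRingEnd ℂ) pvOm * (T.offN (T.nxt q) e : ℂ) + pvOm * (T.offN (T.nxt (T.nxt q)) e : ℂ))

/-- barycentric coordinate `= P[H_λ(e) | d is the tag of the closing face]` -/
noncomputable def obsP [Fintype V] (d e : D) : ℝ := 4 * (T.obsN d e : ℝ) / 2 ^ Fintype.card V

/-- the darts met by the positive rotation from `e` (included) up to `q` (excluded) -/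
def Sec (e q : D) : Set D := {e' | ∃ m : ℕ, e' = T.rot^[m] e ∧ ∀ i, i ≤ m → T.rot^[i] e ≠ q}

/-- the vertices of colour `β` off the closing face (= original disc vertices) -/
def dcol (q : D) (s : V → Bool) (β : Bool) : Set V := {v | v ≠ T.src q ∧ v ≠ T.tgt q ∧ v ≠ T.apex q ∧ s v = β}

/-- vertex crossing inside `X` from the heads of the darts of the sector `Sec e q` to the neighbours of `apex q` -/
def XB (q e : D) (X : Set V) : Prop := ∃ e' ∈ T.Sec e q, ∃ x, T.Adj x (T.apex q) ∧ T.Join Set.univ X (T.tgt e') x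

/-- the arm event of the face set `A`: an occupied dart of `A` both ends of which are `Mono`-joined to vertices of the closing face -/
def ArmEv (q : D) (A : Set D) (s : V → Bool) : Prop :=
  ∃ b ∈ A, T.Occ s b ∧ (∃ d, T.SF q d ∧ T.Mono s (T.src b) (T.src d)) ∧ ∃ d, T.SF q d ∧ T.Mono s (T.tgt b) (T.src d)

/-- dual path all of whose darts lie in `A` -/
def DIn (A : Set D) (e e' : D) : Prop := e ∈ A ∧ ReflTransGen (fun a b => (b = T.nxt a ∨ b = T.opp a) ∧ b ∈ A) e e'

end PvMap

theorem pv82_eqns_cite : True := by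
  have := @PvMap.obsN.eq_1; have := @PvMap.labN.eq_1; have := @PvMap.offN.eq_1; have := @PvMap.obsF.eq_1
  have := @PvMap.obsL.eq_1; have := @PvMap.obsO.eq_1; have := @PvMap.obsP.eq_1; have := @PvMap.Sec.eq_1
  have := @PvMap.dcol.eq_1; have := @PvMap.XB.eq_1; have := @PvMap.ArmEv.eq_1; have := @PvMap.DIn.eq_1
  trivial

variable {V D : Type} {T : PvMap V D}

/-- **IMPORT** `= orth_count` of `S1/Orth` (helper53): TEX[fields:orthogonality-prop] in the anti-circulant count form -/
theorem pv82_orth_count [Fintype V] [Finite D] (hT : T.IsSph) {d d' : D} (hdd : ¬ T.SF d d') :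
    T.labN d d' = T.labN (T.nxt d) (T.nxt (T.nxt d')) := by
  classical
  unfold PvMap.labN
  convert pvso_orth_count hT hdd

/-! ## 1. Components beside a wall: local calculus -/

theorem pv82_inc_opp {s : V → Bool} {d e : D} : T.InComp s d (T.opp e) ↔ T.InComp s d e := by
  constructor
  · intro h
    have := ReflTransGen.tail h (Or.inl rfl : T.CStep s d (T.opp e) (T.opp (T.opp e)))
    rwa [T.opp_opp] at this
  · intro h
    exact ReflTransGen.tail h (Or.inl rfl)

theorem pv82_wall_sf {s : V → Bool} {d e e' : D} (h : T.SF e e') : T.Wall s d e' ↔ T.Wall s d e :=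
  ⟨fun h1 => PvMap.Wall.trans T h1 (PvMap.Wall.of_SF T s (T.sf_symm h)), fun h1 => PvMap.Wall.trans T h1 (PvMap.Wall.of_SF T s h)⟩

theorem pv82_inc_sf {s : V → Bool} {d e e' : D} (hw : ¬ T.Wall s d e) (h : T.SF e e') : T.InComp s d e' ↔ T.InComp s d e := by
  constructor
  · intro h1
    exact ReflTransGen.tail h1 (Or.inr ⟨T.sf_symm h, fun h2 => hw ((pv82_wall_sf h).1 h2)⟩)
  · intro h1
    exact ReflTransGen.tail h1 (Or.inr ⟨h, hw⟩)

/-- the component never contains an occupied edge of its wall -/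
theorem pv82_inc_not_occ {s : V → Bool} {d e : D} (hd : T.Tag s d) (h : T.InComp s d e) : ¬ (T.Occ s e ∧ T.Wall s d e) := by
  induction h with
  | refl => exact fun h1 => h1.1 hd.1
  | tail _ hstep ih =>
    rcases hstep with rfl | ⟨hsf, hw⟩
    · rintro ⟨h1, h2⟩
      refine ih ⟨?_, ?_⟩
      · have := T.occ_opp h1
        rwa [T.opp_opp] at this
      · have := ReflTransGen.tail h2 (Or.inr ⟨h1, rfl⟩ : T.SF _ _ ∨ (T.Occ s _ ∧ _ = T.opp _))
        rwa [T.opp_opp] at this
    · exact fun h1 => hw ((pv82_wall_sf hsf).1 h1.2)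

/-- on the wall the component sees exactly the tags of the label -/
theorem pv82_inc_wall {s : V → Bool} {d e : D} (hd : T.Tag s d) (hw : T.Wall s d e) : T.InComp s d e ↔ T.SameLab s d e := by
  constructor
  · intro h
    have h1 : s (T.src e) = s (T.tgt e) := by
      by_contra hne
      exact pv82_inc_not_occ hd h ⟨hne, hw⟩
    exact ⟨hd, T.tag_of_occ h1 (T.wall_occ hd hw), hw, h⟩
  · exact fun h => h.2.2.2

theorem pv82_N_split [Fintype V] (d e : D) : T.obsN d e = T.offN d e + T.labN d e := by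
  classical
  unfold PvMap.obsN PvMap.offN PvMap.labN
  rw [← Finset.card_union_of_disjoint]
  · congr 1
    ext s
    simp only [Finset.mem_filter, Finset.mem_univ, true_and, Finset.mem_union]
    constructor
    · rintro ⟨h1, h2⟩
      by_cases hw : T.Wall s d e
      · exact Or.inr ((pv82_inc_wall h1 hw).1 h2)
      · exact Or.inl ⟨h1, h2, hw⟩
    · rintro (⟨h1, h2, -⟩ | h)
      · exact ⟨h1, h2⟩
      · exact ⟨h.1, h.2.2.2⟩
  · rw [Finset.disjoint_left]
    intro s h1 h2
    simp only [Finset.mem_filter, Finset.mem_univ, true_and] at h1 h2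
    exact h1.2.2 h2.2.2.1

theorem pv82_off_nxt [Fintype V] (d e : D) : T.offN d (T.nxt e) = T.offN d e := by
  classical
  unfold PvMap.offN
  congr 1
  ext s
  simp only [Finset.mem_filter, Finset.mem_univ, true_and]
  constructor
  · rintro ⟨h1, h2, h3⟩
    have hw : ¬ T.Wall s d e := fun h => h3 ((pv82_wall_sf (T.sf_nxt e)).2 h)
    exact ⟨h1, (pv82_inc_sf hw (T.sf_nxt e)).1 h2, hw⟩
  · rintro ⟨h1, h2, h3⟩
    exact ⟨h1, (pv82_inc_sf h3 (T.sf_nxt e)).2 h2, fun h => h3 ((pv82_wall_sf (T.sf_nxt e)).1 h)⟩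

theorem pv82_N_opp [Fintype V] (d e : D) : T.obsN d (T.opp e) = T.obsN d e := by
  classical
  unfold PvMap.obsN
  congr 1
  ext s
  simp only [Finset.mem_filter, Finset.mem_univ, true_and, pv82_inc_opp]

/-! ## 2. Counting colourings -/

theorem pv82_upd_invol [DecidableEq V] (x : V) : Function.Involutive fun s : V → Bool => Function.update s x (!s x) := by
  intro s
  funext v
  by_cases h : v = x
  · subst h; simp
  · simp [Function.update_of_ne h]

theorem pv82_card_congr [Fintype V] [DecidableEq V] {P Q : (V → Bool) → Prop} [DecidablePred P] [DecidablePred Q] (h : ∀ s, P s ↔ Q s) :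
    (Finset.univ.filter P).card = (Finset.univ.filter Q).card := by
  rw [Finset.filter_congr fun s _ => h s]

/-- **halving**: a coordinate which is prescribed by the others -/
theorem pv82_half [Fintype V] [DecidableEq V] (x : V) (f : (V → Bool) → Bool) (P : (V → Bool) → Prop) [DecidablePred P]
    (hf : ∀ s b, f (Function.update s x b) = f s) (hP : ∀ s b, P (Function.update s x b) ↔ P s) :
    2 * (Finset.univ.filter fun s : V → Bool => s x = f s ∧ P s).card = (Finset.univ.filter fun s : V → Bool => P s).card := by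
  have h1 : (Finset.univ.filter fun s : V → Bool => P s).card
      = (Finset.univ.filter fun s : V → Bool => s x = f s ∧ P s).card + (Finset.univ.filter fun s : V → Bool => ¬ s x = f s ∧ P s).card := by
    rw [← Finset.card_union_of_disjoint]
    · congr 1
      ext s
      simp only [Finset.mem_filter, Finset.mem_univ, true_and, Finset.mem_union]
      tauto
    · rw [Finset.disjoint_left]
      intro s h1 h2
      simp only [Finset.mem_filter, Finset.mem_univ, true_and] at h1 h2
      exact h2.1 h1.1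
  have h2 : (Finset.univ.filter fun s : V → Bool => ¬ s x = f s ∧ P s).card = (Finset.univ.filter fun s : V → Bool => s x = f s ∧ P s).card := by
    refine Finset.card_bijective _ (pv82_upd_invol x).bijective fun s => ?_
    simp only [Finset.mem_filter, Finset.mem_univ, true_and, Function.update_self, hf, hP]
    refine and_congr_left fun _ => ?_
    generalize s x = a
    generalize f s = b
    revert a b
    decide
  omega

/-- global colour flip -/
theorem pv82_flip [Fintype V] [DecidableEq V] (P : (V → Bool) → Prop) [DecidablePred P] :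
    (Finset.univ.filter fun s : V → Bool => P fun v => !s v).card = (Finset.univ.filter fun s : V → Bool => P s).card := by
  have hinv : Function.Involutive fun (s : V → Bool) (v : V) => !s v := fun s => by funext v; simp
  refine Finset.card_bijective _ hinv.bijective fun s => ?_
  simp only [Finset.mem_filter, Finset.mem_univ, true_and]

theorem pv82_card_univ [Fintype V] [DecidableEq V] : (Finset.univ.filter fun _ : V → Bool => True).card = 2 ^ Fintype.card V := by
  rw [Finset.filter_true_of_mem (fun _ _ => trivial), Finset.card_univ, Fintype.card_fun, Fintype.card_bool]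

open Classical in
/-- a face is used by a wall with a given missing spoke with probability `1/4` -/
theorem pv82_tag_card [Fintype V] (d : D) : 4 * (Finset.univ.filter fun s : V → Bool => T.Tag s d).card = 2 ^ Fintype.card V := by
  have h1 := pv82_half (T.apex d) (fun s => !s (T.src d)) (fun s => s (T.tgt d) = s (T.src d) ∧ True)
    (fun s b => by simp only [Function.update_of_ne (T.apex_ne_src d).symm])
    (fun s b => by simp only [Function.update_of_ne (T.apex_ne_src d).symm, Function.update_of_ne (T.apex_ne_tgt d).symm])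
  have h2 := pv82_half (T.tgt d) (fun s => s (T.src d)) (fun _ => True)
    (fun s b => by simp only [Function.update_of_ne (T.tgt_ne_src d).symm]) (fun s b => Iff.rfl)
  rw [pv82_card_univ] at h2
  have h3 := pv82_card_congr (P := fun s : V → Bool => T.Tag s d) (Q := fun s : V → Bool => s (T.apex d) = (!s (T.src d)) ∧ s (T.tgt d) = s (T.src d) ∧ True) fun s => by
    simp only [and_true]
    unfold PvMap.Tag
    generalize s (T.apex d) = a
    generalize s (T.src d) = b
    generalize s (T.tgt d) = c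
    revert a b c
    decide
  omega

/-! ## 3. (X1) the three coefficients add up to one -/

theorem pv82_tag_occ {s : V → Bool} {d e : D} (hd : T.Tag s d) (h : T.SF d e) (hne : e ≠ d) : T.Occ s e := by
  rcases h with rfl | rfl | rfl
  · exact absurd rfl hne
  · unfold PvMap.Occ
    rw [T.src_nxt, T.tgt_nxt, ← hd.1]
    exact hd.2.symm
  · unfold PvMap.Occ
    rw [T.src_nxt2, T.tgt_nxt2]
    exact hd.2

open Classical in
theorem pv82_N_self [Fintype V] (d : D) : T.obsN d d = (Finset.univ.filter fun s : V → Bool => T.Tag s d).card := by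
  unfold PvMap.obsN
  congr 1
  ext s
  simp only [Finset.mem_filter, Finset.mem_univ, true_and]
  exact ⟨fun h => h.1, fun h => ⟨h, ReflTransGen.refl⟩⟩

theorem pv82_N_face [Fintype V] {d e : D} (h : T.SF d e) (hne : e ≠ d) : T.obsN d e = 0 := by
  classical
  unfold PvMap.obsN
  rw [Finset.card_eq_zero, Finset.filter_eq_empty_iff]
  rintro s - ⟨h1, h2⟩
  exact pv82_inc_not_occ h1 h2 ⟨pv82_tag_occ h1 h hne, PvMap.Wall.of_SF T s h⟩

theorem pv82_sum_self [Fintype V] (q : D) : 4 * (T.obsN q q + T.obsN (T.nxt q) q + T.obsN (T.nxt (T.nxt q)) q) = 2 ^ Fintype.card V := by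
  rw [pv82_N_face (T.sf_symm (T.sf_nxt q)) (T.nxt_ne_self q).symm, pv82_N_face (T.sf_symm (T.sf_nxt2 q)) (T.nxt2_ne_self q).symm, pv82_N_self,
    add_zero, add_zero]
  exact pv82_tag_card q

theorem pv82_sum_face [Fintype V] {q e : D} (h : T.SF q e) : 4 * (T.obsN q e + T.obsN (T.nxt q) e + T.obsN (T.nxt (T.nxt q)) e) = 2 ^ Fintype.card V := by
  rcases h with rfl | rfl | rfl
  · exact pv82_sum_self _
  · have := pv82_sum_self (T := T) (T.nxt q)
    rw [T.nxt3] at this
    omega
  · have := pv82_sum_self (T := T) (T.nxt (T.nxt q))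
    rw [T.nxt3] at this
    omega

theorem pv82_not_sf {q a : D} (h : ¬ T.SF q a) (d b : D) (hd : T.SF q d) (hb : T.SF a b) : ¬ T.SF d b := fun h1 =>
  h (T.sf_trans hd (T.sf_trans h1 (T.sf_symm hb)))

theorem pv82_sum_nxt [Fintype V] [Finite D] (hT : T.IsSph) {q a : D} (h : ¬ T.SF q a) :
    T.obsN q (T.nxt a) + T.obsN (T.nxt q) (T.nxt a) + T.obsN (T.nxt (T.nxt q)) (T.nxt a) = T.obsN q a + T.obsN (T.nxt q) a + T.obsN (T.nxt (T.nxt q)) a := by
  have h0 := pv82_orth_count hT (pv82_not_sf h q (T.nxt a) (T.sf_refl q) (T.sf_nxt a))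
  have h1 := pv82_orth_count hT (pv82_not_sf h (T.nxt q) (T.nxt a) (T.sf_nxt q) (T.sf_nxt a))
  have h2 := pv82_orth_count hT (pv82_not_sf h (T.nxt (T.nxt q)) (T.nxt a) (T.sf_nxt2 q) (T.sf_nxt a))
  rw [T.nxt3] at h0 h1 h2
  rw [T.nxt3] at h2
  simp only [pv82_N_split, pv82_off_nxt]
  omega

/-- **(X1)** the three coefficients are barycentric coordinates -/
theorem pv82_sum [Fintype V] [Finite D] (hT : T.IsSph) (q e : D) :
    4 * (T.obsN q e + T.obsN (T.nxt q) e + T.obsN (T.nxt (T.nxt q)) e) = 2 ^ Fintype.card V := by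
  have h := pl_dual_conn hT q e
  induction h with
  | refl => exact pv82_sum_self q
  | @tail a b _ hab ih =>
    rcases hab with rfl | ⟨rfl, -⟩
    · by_cases hs : T.SF q a
      · exact pv82_sum_face (T.sf_trans hs (T.sf_nxt a))
      · rw [pv82_sum_nxt hT hs]; exact ih
    · simp only [pv82_N_opp]; exact ih

/-! ## 4. (X2) the side constraint -/

/-- the component reached through the missing spoke stays on the side of the wall opposite to the apex -/
theorem pv82_side_pt (hT : T.IsSph) {s : V → Bool} {d e : D} (hd : T.Tag s d) (h : T.InComp s d e) : T.src e ≠ T.apex d ∧ T.tgt e ≠ T.apex d := by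
  obtain ⟨τ, hτ⟩ := pl_w_pot hT s d
  have hno : ∀ x, ¬ T.Occ τ x → τ (T.src x) = τ (T.tgt x) := fun x hx => not_not.1 hx
  have key : τ (T.src e) = τ (T.src d) ∧ τ (T.tgt e) = τ (T.src d) := by
    induction h with
    | refl => exact ⟨rfl, (hno d fun h1 => ((hτ d).1 h1).1 hd.1).symm⟩
    | @tail a b _ hab ih =>
      rcases hab with rfl | ⟨hsf, hw⟩
      · rw [T.src_opp', T.tgt_opp]; exact ⟨ih.2, ih.1⟩
      · have h1 : τ (T.tgt a) = τ (T.apex a) := by
          have := hno (T.nxt a) fun h1 => hw ((pv82_wall_sf (T.sf_nxt a)).1 ((hτ _).1 h1).2)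
          rwa [T.src_nxt, T.tgt_nxt] at this
        rcases hsf with rfl | rfl | rfl
        · exact ih
        · rw [T.src_nxt, T.tgt_nxt]; exact ⟨ih.2, h1 ▸ ih.2⟩
        · rw [T.src_nxt2, T.tgt_nxt2]; exact ⟨h1 ▸ ih.2, ih.1⟩
  have hap : τ (T.apex d) ≠ τ (T.src d) := by
    have : T.Occ τ (T.nxt (T.nxt d)) := (hτ _).2 ⟨pv82_tag_occ hd (T.sf_nxt2 d) (T.nxt2_ne_self d), PvMap.Wall.of_SF T s (T.sf_nxt2 d)⟩
    unfold PvMap.Occ at this
    rwa [T.src_nxt2, T.tgt_nxt2] at this
  exact ⟨fun h1 => hap (h1 ▸ key.1), fun h1 => hap (h1 ▸ key.2)⟩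

/-- **(X2)** -/
theorem pv82_N_apex [Fintype V] (hT : T.IsSph) {d e : D} (h : T.src e = T.apex d ∨ T.tgt e = T.apex d) : T.obsN d e = 0 := by
  classical
  unfold PvMap.obsN
  rw [Finset.card_eq_zero, Finset.filter_eq_empty_iff]
  rintro s - ⟨h1, h2⟩
  have := pv82_side_pt hT h1 h2
  tauto

/-! ## 5. The observable: triangle, side lines, rotation of the closing face -/

theorem pv82_om_norm : ‖pvOm‖ = 1 := by
  have e : (2 * Real.pi * Complex.I / 3 : ℂ) = ((2 * Real.pi / 3 : ℝ) : ℂ) * Complex.I := by push_cast; ring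
  unfold pvOm
  rw [e, Complex.norm_exp_ofReal_mul_I]

theorem pv82_pow_ne (n : ℕ) : (2 : ℂ) ^ n ≠ 0 := pow_ne_zero _ two_ne_zero

theorem pv82_F_eq [Fintype V] (q e : D) :
    T.obsF q e = (T.obsP q e : ℂ) + (starRingEnd ℂ) pvOm * (T.obsP (T.nxt q) e : ℂ) + pvOm * (T.obsP (T.nxt (T.nxt q)) e : ℂ) := by
  unfold PvMap.obsF PvMap.obsP
  push_cast
  ring

theorem pv82_P_nonneg [Fintype V] (d e : D) : 0 ≤ T.obsP d e := by
  unfold PvMap.obsP
  positivity

theorem pv82_P_sum [Fintype V] [Finite D] (hT : T.IsSph) (q e : D) : T.obsP q e + T.obsP (T.nxt q) e + T.obsP (T.nxt (T.nxt q)) e = 1 := by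
  have h := pv82_sum hT q e
  have h' : (4 : ℝ) * ((T.obsN q e : ℝ) + (T.obsN (T.nxt q) e : ℝ) + (T.obsN (T.nxt (T.nxt q)) e : ℝ)) = 2 ^ Fintype.card V := by exact_mod_cast h
  have h2 : (2 : ℝ) ^ Fintype.card V ≠ 0 := pow_ne_zero _ two_ne_zero
  unfold PvMap.obsP
  field_simp
  linarith

theorem pv82_P_le_one [Fintype V] [Finite D] (hT : T.IsSph) (q e : D) : T.obsP q e ≤ 1 := by
  have h := pv82_P_sum hT q e
  have h1 := pv82_P_nonneg (T := T) (T.nxt q) e
  have h2 := pv82_P_nonneg (T := T) (T.nxt (T.nxt q)) e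
  linarith

/-- **Prop 8.2, first assertion**: the observable lies in the closed triangle; in particular -/
theorem pv82_norm_le [Fintype V] [Finite D] (hT : T.IsSph) (q e : D) : ‖T.obsF q e‖ ≤ 1 := by
  rw [pv82_F_eq]
  have h := pv82_P_sum hT q e
  have h0 := pv82_P_nonneg (T := T) q e
  have h1 := pv82_P_nonneg (T := T) (T.nxt q) e
  have h2 := pv82_P_nonneg (T := T) (T.nxt (T.nxt q)) e
  calc _ ≤ ‖(T.obsP q e : ℂ)‖ + ‖(starRingEnd ℂ) pvOm * (T.obsP (T.nxt q) e : ℂ)‖ + ‖pvOm * (T.obsP (T.nxt (T.nxt q)) e : ℂ)‖ := norm_add₃_le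
    _ = T.obsP q e + T.obsP (T.nxt q) e + T.obsP (T.nxt (T.nxt q)) e := by
      rw [norm_mul, norm_mul, RCLike.norm_conj, pv82_om_norm, one_mul, one_mul, Complex.norm_real, Complex.norm_real, Complex.norm_real,
        Real.norm_of_nonneg h0, Real.norm_of_nonneg h1, Real.norm_of_nonneg h2]
    _ = 1 := h

/-- turning the closing face -/
theorem pv82_F_nxt [Fintype V] (q e : D) : T.obsF (T.nxt q) e = pvOm * T.obsF q e := by
  unfold PvMap.obsF
  rw [T.nxt3]
  linear_combination (-(4 / 2 ^ Fintype.card V * (T.obsN (T.nxt q) e : ℂ))) * pvOm_mul_conj + (-(4 / 2 ^ Fintype.card V * (T.obsN (T.nxt (T.nxt q)) e : ℂ))) * pvOm_sq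

/-- **Prop 8.2, second assertion**: side line at the probes with an end at `src q`   (the other two fans: `pv82_F_nxt`) -/
theorem pv82_F_fan [Fintype V] [Finite D] (hT : T.IsSph) {q e : D} (he : T.src e = T.src q ∨ T.tgt e = T.src q) :
    T.obsF q e = 1 + (T.obsP (T.nxt (T.nxt q)) e : ℂ) * (pvOm - 1) := by
  have h0 : T.obsN (T.nxt q) e = 0 := pv82_N_apex hT (by rw [T.apex_nxt]; exact he)
  have h1 : T.obsP (T.nxt q) e = 0 := by unfold PvMap.obsP; rw [h0]; simp
  have h2 := pv82_P_sum hT q e
  rw [h1, add_zero] at h2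
  have h3 : (T.obsP q e : ℂ) + (T.obsP (T.nxt (T.nxt q)) e : ℂ) = 1 := by exact_mod_cast h2
  rw [pv82_F_eq, h1]
  push_cast
  linear_combination h3

/-! ## 6. (X4), (X5): orthogonality against the closing face, sums with zero face sums -/

theorem pv82_F_split [Fintype V] (q e : D) : T.obsF q e = T.obsO q e + T.obsL q e := by
  unfold PvMap.obsF PvMap.obsO PvMap.obsL
  simp only [pv82_N_split]
  push_cast
  ring

theorem pv82_O_nxt [Fintype V] (q e : D) : T.obsO q (T.nxt e) = T.obsO q e := by
  unfold PvMap.obsO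
  simp only [pv82_off_nxt]

/-- **(X4) for the label part** `= E[w_* 1{tag of λ_*}]` is orthogonal to `ω^j` at every face off the closing face -/
theorem pv82_orth_L [Fintype V] [Finite D] (hT : T.IsSph) {q e : D} (h : ¬ T.SF q e) :
    T.obsL q e + pvOm * T.obsL q (T.nxt e) + (starRingEnd ℂ) pvOm * T.obsL q (T.nxt (T.nxt e)) = 0 := by
  have a1 := pv82_orth_count hT (pv82_not_sf h q e (T.sf_refl q) (T.sf_refl e))
  have a2 := pv82_orth_count hT (pv82_not_sf h (T.nxt q) (T.nxt (T.nxt e)) (T.sf_nxt q) (T.sf_nxt2 e))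
  have b1 := pv82_orth_count hT (pv82_not_sf h q (T.nxt e) (T.sf_refl q) (T.sf_nxt e))
  have b2 := pv82_orth_count hT (pv82_not_sf h (T.nxt q) e (T.sf_nxt q) (T.sf_refl e))
  have c1 := pv82_orth_count hT (pv82_not_sf h q (T.nxt (T.nxt e)) (T.sf_refl q) (T.sf_nxt2 e))
  have c2 := pv82_orth_count hT (pv82_not_sf h (T.nxt q) (T.nxt e) (T.sf_nxt q) (T.sf_nxt e))
  simp only [T.nxt3] at a2 b1 c1 c2
  unfold PvMap.obsL
  rw [a1, a2, b1, b2, c1, c2]
  linear_combination (4 / 2 ^ Fintype.card V * ((T.labN (T.nxt (T.nxt q)) (T.nxt e) : ℂ) + (T.labN (T.nxt (T.nxt q)) (T.nxt (T.nxt e)) : ℂ) + (T.labN (T.nxt (T.nxt q)) e : ℂ))) * pvOm_sum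
    + (4 / 2 ^ Fintype.card V * (T.labN (T.nxt (T.nxt q)) (T.nxt e) : ℂ)) * (pvOm_sq + pvOm_conj_sq)
    + (4 / 2 ^ Fintype.card V * ((T.labN (T.nxt (T.nxt q)) (T.nxt (T.nxt e)) : ℂ) + (T.labN (T.nxt (T.nxt q)) e : ℂ))) * pvOm_mul_conj

/-- **(X4)** TEX: `∑_j ω^j F_{m_j(t)} = 0` at every face off the closing face -/
theorem pv82_orth [Fintype V] [Finite D] (hT : T.IsSph) {q e : D} (h : ¬ T.SF q e) :
    T.obsF q e + pvOm * T.obsF q (T.nxt e) + (starRingEnd ℂ) pvOm * T.obsF q (T.nxt (T.nxt e)) = 0 := by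
  have h1 := pv82_orth_L hT h
  simp only [pv82_F_split, pv82_O_nxt]
  linear_combination h1 + T.obsO q e * pvOm_sum

theorem pv82_nxt_bij : Function.Bijective T.nxt := ⟨T.nxt_injective, fun d => ⟨T.nxt (T.nxt d), T.nxt3 d⟩⟩

/-- **(X5)** sums against coefficients with zero face sums see only the tags of `λ_*` -/
theorem pv82_face_sum [Fintype V] [Fintype D] (q : D) (y : D → ℂ) (hy : ∀ d, y d + y (T.nxt d) + y (T.nxt (T.nxt d)) = 0) :
    ∑ d, y d * T.obsF q d = ∑ d, y d * T.obsL q d := by
  have h1 : ∑ d, y (T.nxt d) * T.obsO q (T.nxt d) = ∑ d, y d * T.obsO q d := pv82_nxt_bij.sum_comp fun d => y d * T.obsO q d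
  have h2 : ∑ d, y (T.nxt (T.nxt d)) * T.obsO q (T.nxt (T.nxt d)) = ∑ d, y (T.nxt d) * T.obsO q (T.nxt d) :=
    pv82_nxt_bij.sum_comp fun d => y (T.nxt d) * T.obsO q (T.nxt d)
  have h3 : ∑ d, (y d * T.obsO q d + y (T.nxt d) * T.obsO q (T.nxt d) + y (T.nxt (T.nxt d)) * T.obsO q (T.nxt (T.nxt d))) = 0 := by
    refine Finset.sum_eq_zero fun d _ => ?_
    simp only [pv82_O_nxt]
    linear_combination T.obsO q d * hy d
  rw [Finset.sum_add_distrib, Finset.sum_add_distrib, h2, h1] at h3
  have h4 : ∑ d, y d * T.obsO q d = 0 := by linear_combination (1 / 3 : ℂ) * h3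
  simp only [pv82_F_split, mul_add, Finset.sum_add_distrib, h4, zero_add]

end Claimed.Agent.R289
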