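import Claimed.Agent.R289.Fan.Sphere
import Claimed.Agent.R289.Fan.Obs

/-!
# Row 289 (S0537, Cardy for Poisson-Voronoi), unit OBS / P82, file Fan/Dict : DICTIONARY completed sphere ↔ closed disc      (owner helper92; prefix `PvFan.`, `pvfd_`; 0 sorry)

TEX 08-observable.tex, Prop 8.2 last paragraph ("any connection between the two black fans contains a path of original black vertices between their respective arcs, and conversely") and Lemma 8.3 ("a monochromatic path of original disk sites ... reaches the boundary").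
`F : PvFan V D` (`Fan/Sphere.lean`), `M = F.map`, closing dart `q = .s j` (paper and helper91: `j = 0`), fan probe number `t` at `s_j`: `M.rot^[2 + t] (.s j)`, head `x_{hi j - t}`.
* sec. 1  `F.tr X` (trace on the disc), `join_iff` : `M.Join univ X (iv u) (iv w) ↔ T.Join c.Left (F.tr X) u w` for a set `X` of disc vertices;
* sec. 2  `sec_probe` : `M.Sec (probe t) q` = the probes number `t ≤ t' ≤ hi j - lo j`;
* sec. 3  **`xb_iff`** : the event `M.XB q (probe t) (M.dcol q s' β)` of `pv82_cross` (helper91 / 173) `↔ ∃ u ∈ c.arc (lo j) (hi j - t), ∃ w ∈ c.arc (lo (j+1)) (hi (j+1)), T.Join c.Left {β-coloured disc vertices} u w`;   `xb_iff_zero` (`j = 0`: arcs `0 … i1 - t` and `i1 … i2`);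
* sec. 4  `mono_hit`, `arm_hit` : monochromatic connections to the closing face (`ArmEv` of helper91) give monochromatic paths of the CLOSED DISC to the boundary cycle (one arm of each colour from an occupied dart);
* sec. 5  `colEquiv`, `card_disc_event`, `card_all` : an event which reads the disc colours only has the same probability in the sphere and in the disc (factor `8`).
-/

set_option autoImplicit false
set_option linter.unusedVariables false
set_option linter.unusedSimpArgs false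

namespace Claimed.Agent.R289

open Relation

namespace PvFan

variable {V D : Type} (F : PvFan V D)

/-! ## 1. paths of disc vertices: sphere ↔ disc -/

/-- the trace on the disc of a set of vertices of the sphere -/
def tr (X : Set F.V') : Set V := {v | ∃ hv, F.iv v hv ∈ X}

theorem edgeIn_univ {x y : F.V'} : F.map.EdgeIn Set.univ x y ↔ F.map.Adj x y :=
  ⟨fun ⟨d, _, h1, h2⟩ => ⟨d, h1, h2⟩, fun ⟨d, h1, h2⟩ => ⟨d, Or.inl trivial, h1, h2⟩⟩

/-- **Join transfer**: a path in the sphere through vertices of `X`, `X` a set of disc vertices, is a path of the closed disc -/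
theorem join_iff {X : Set F.V'} (hX : ∀ y ∈ X, ∃ v hv, y = F.iv v hv) {u w : V} (hu : u ∈ F.T.VOf F.c.Left) (hw : w ∈ F.T.VOf F.c.Left) :
    F.map.Join Set.univ X (F.iv u hu) (F.iv w hw) ↔ F.T.Join F.c.Left (F.tr X) u w := by
  constructor
  · rintro ⟨h0, h⟩
    refine ⟨⟨hu, h0⟩, ?_⟩
    have key : ∀ y, ReflTransGen (fun a b => F.map.EdgeIn Set.univ a b ∧ b ∈ X) (F.iv u hu) y →
        ∀ w hw, y = F.iv w hw → ReflTransGen (fun a b => F.T.EdgeIn F.c.Left a b ∧ b ∈ F.tr X) u w := by
      intro y hy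
      induction hy with
      | refl =>
        intro w hw e
        have : u = w := congrArg Subtype.val (Sum.inl.inj e)
        subst this
        exact ReflTransGen.refl
      | @tail b c hab hbc ih =>
        intro w hw e
        subst e
        have hb : ∃ v hv, b = F.iv v hv := by
          cases hab with
          | refl => exact ⟨u, hu, rfl⟩
          | tail _ h' => exact hX _ h'.2
        obtain ⟨v, hv, rfl⟩ := hb
        exact ReflTransGen.tail (ih v hv rfl) ⟨(F.adj_iv_iff hv hw).1 (F.edgeIn_univ.1 hbc.1), hw, hbc.2⟩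
    exact key _ h w hw rfl
  · rintro ⟨⟨_, h0⟩, h⟩
    refine ⟨h0, ?_⟩
    have key : ∀ w, ReflTransGen (fun a b => F.T.EdgeIn F.c.Left a b ∧ b ∈ F.tr X) u w →
        ∀ hw, ReflTransGen (fun a b => F.map.EdgeIn Set.univ a b ∧ b ∈ X) (F.iv u hu) (F.iv w hw) := by
      intro w hy
      induction hy with
      | refl => exact fun _ => ReflTransGen.refl
      | @tail b c hab hbc ih =>
        intro hw
        have hb : b ∈ F.T.VOf F.c.Left := by
          cases hab with
          | refl => exact hu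
          | tail _ h' => exact h'.2.1
        obtain ⟨_, hc⟩ := hbc.2
        exact ReflTransGen.tail (ih hb) ⟨F.edgeIn_univ.2 ((F.adj_iv_iff hb hw).2 hbc.1), hc⟩
    exact key w h hw

theorem join_end {X : Set F.V'} {x y : F.V'} (h : F.map.Join Set.univ X x y) : y ∈ X := by
  obtain ⟨h0, h⟩ := h
  cases h with
  | refl => exact h0
  | tail _ h' => exact h'.2

/-! ## 2. the sector of a fan probe -/

theorem rot_probe_ne (j : Fin 3) (t : ℕ) (ht : t ≤ F.hi j - F.lo j) : F.map.rot^[2 + t] (.s j) ≠ .s j := by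
  rcases Nat.lt_or_ge t (F.hi j - F.lo j) with h | h
  · rw [F.rot_s_c j t h]
    exact fun e => by cases e
  · have e : t = F.hi j - F.lo j := le_antisymm ht h
    rw [e, F.rot_s_r]
    exact fun e => by cases e

/-- the darts from the fan probe number `t` (included) up to the closing face (excluded) are the fan probes number `t' ≥ t` -/
theorem sec_probe (j : Fin 3) (t : ℕ) (ht : t ≤ F.hi j - F.lo j) (x : F.D') :
    x ∈ F.map.Sec (F.map.rot^[2 + t] (.s j)) (.s j) ↔ ∃ t', t ≤ t' ∧ t' ≤ F.hi j - F.lo j ∧ x = F.map.rot^[2 + t'] (.s j) := by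
  constructor
  · rintro ⟨m, rfl, hm⟩
    refine ⟨t + m, by omega, ?_, ?_⟩
    · by_contra hcon
      have h1 : F.hi j - F.lo j - t + 1 ≤ m := by omega
      apply hm _ h1
      rw [← Function.iterate_add_apply, show F.hi j - F.lo j - t + 1 + (2 + t) = 3 + (F.hi j - F.lo j) by omega, F.rot_s_s]
    · rw [← Function.iterate_add_apply]
      congr 1
      omega
  · rintro ⟨t', h1, h2, rfl⟩
    refine ⟨t' - t, ?_, fun i hi => ?_⟩
    · rw [← Function.iterate_add_apply]
      congr 1
      omega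
    · rw [← Function.iterate_add_apply, show i + (2 + t) = 2 + (t + i) by omega]
      exact F.rot_probe_ne j _ (by omega)

/-! ## 3. the crossing event of `pv82_cross` in the disc -/

theorem apex_s (j : Fin 3) : F.map.apex (.s j) = F.sv (sj j) := rfl

theorem sv_cases (i j : Fin 3) : i = j ∨ i = pj j ∨ i = sj j := by
  match i, j with
  | 0, 0 => exact Or.inl rfl
  | 1, 1 => exact Or.inl rfl
  | 2, 2 => exact Or.inl rfl
  | 0, 1 => exact Or.inr (Or.inl rfl)
  | 1, 2 => exact Or.inr (Or.inl rfl)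
  | 2, 0 => exact Or.inr (Or.inl rfl)
  | 0, 2 => exact Or.inr (Or.inr rfl)
  | 1, 0 => exact Or.inr (Or.inr rfl)
  | 2, 1 => exact Or.inr (Or.inr rfl)

/-- the vertices off the closing face are the disc vertices -/
theorem dcol_disc (j : Fin 3) (s' : F.V' → Bool) (β : Bool) : ∀ y ∈ F.map.dcol (.s j) s' β, ∃ v hv, y = F.iv v hv := by
  rintro (⟨v, hv⟩ | i) ⟨h1, h2, h3, -⟩
  · exact ⟨v, hv, rfl⟩
  · rcases sv_cases i j with e | e | e
    · exact absurd (by rw [e]; rfl) h1
    · exact absurd (by rw [e]; rfl) h2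
    · exact absurd (by rw [e]; rfl) h3

theorem tr_dcol (j : Fin 3) (s' : F.V' → Bool) (β : Bool) : F.tr (F.map.dcol (.s j) s' β) = {v | ∃ hv, s' (F.iv v hv) = β} := by
  ext v
  constructor
  · rintro ⟨hv, -, -, -, h⟩
    exact ⟨hv, h⟩
  · rintro ⟨hv, h⟩
    exact ⟨hv, fun e => (by cases e), fun e => (by cases e), fun e => (by cases e), h⟩

/-- **XB dictionary, general set** -/
theorem xb_iff_set (j : Fin 3) (t : ℕ) (ht : t ≤ F.hi j - F.lo j) {X : Set F.V'} (hX : ∀ y ∈ X, ∃ v hv, y = F.iv v hv) :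
    F.map.XB (.s j) (F.map.rot^[2 + t] (.s j)) X ↔
      ∃ u ∈ F.c.arc (F.lo j) (F.hi j - t), ∃ w ∈ F.c.arc (F.lo (sj j)) (F.hi (sj j)), F.T.Join F.c.Left (F.tr X) u w := by
  constructor
  · rintro ⟨e', he', x, hx, hj⟩
    obtain ⟨t', h1, h2, rfl⟩ := (F.sec_probe j t ht e').1 he'
    obtain ⟨w, hw, rfl⟩ := hX x (F.join_end hj)
    rw [F.tgt_probe j t' h2] at hj
    rw [F.apex_s] at hx
    have h0 := F.lo_lt_hi j
    refine ⟨_, ⟨F.hi j - t', by omega, by omega, rfl⟩, w, (F.adj_sv_iff _ hw).1 (F.map.adj_symm hx), ?_⟩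
    exact (F.join_iff hX (F.uv _).2 hw).1 hj
  · rintro ⟨u, ⟨k, h1, h2, rfl⟩, w, hw, hj⟩
    have hwV : w ∈ F.T.VOf F.c.Left := by
      obtain ⟨l, -, -, rfl⟩ := hw
      exact (F.uv l).2
    have h0 := F.lo_lt_hi j
    refine ⟨F.map.rot^[2 + (F.hi j - k)] (.s j), (F.sec_probe j t ht _).2 ⟨F.hi j - k, by omega, by omega, rfl⟩, F.iv w hwV, ?_, ?_⟩
    · rw [F.apex_s]
      exact F.map.adj_symm ((F.adj_sv_iff _ hwV).2 hw)
    · rw [F.tgt_probe j _ (by omega), show F.hi j - (F.hi j - k) = k by omega]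
      exact (F.join_iff hX (F.uv k).2 hwV).2 hj

/-- **XB dictionary**: the event of `pv82_cross` at the fan probe number `t` of `s_j` = a path of `β`-coloured disc vertices in the closed disc from the arc `lo j, …, hi j - t` to the arc `j + 1` -/
theorem xb_iff (j : Fin 3) (t : ℕ) (ht : t ≤ F.hi j - F.lo j) (s' : F.V' → Bool) (β : Bool) :
    F.map.XB (.s j) (F.map.rot^[2 + t] (.s j)) (F.map.dcol (.s j) s' β) ↔
      ∃ u ∈ F.c.arc (F.lo j) (F.hi j - t), ∃ w ∈ F.c.arc (F.lo (sj j)) (F.hi (sj j)),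
        F.T.Join F.c.Left {v | ∃ hv, s' (F.iv v hv) = β} u w := by
  rw [F.xb_iff_set j t ht (F.dcol_disc j s' β), F.tr_dcol]

/-- the case of the paper: `q = s₀ → s₂`, probe at `x_{i1 - t}`: crossing from the arc `x_0 … x_{i1 - t}` to the arc `x_{i1} … x_{i2}` -/
theorem xb_iff_zero (t : ℕ) (ht : t ≤ F.i1) (s' : F.V' → Bool) (β : Bool) :
    F.map.XB (.s 0) (F.map.rot^[2 + t] (.s 0)) (F.map.dcol (.s 0) s' β) ↔
      ∃ u ∈ F.c.arc 0 (F.i1 - t), ∃ w ∈ F.c.arc F.i1 F.i2, F.T.Join F.c.Left {v | ∃ hv, s' (F.iv v hv) = β} u w :=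
  F.xb_iff 0 t ht s' β

/-! ## 4. monochromatic paths to the closing face hit the boundary cycle -/

/-- a monochromatic path of the sphere from a disc vertex `v` to an outer vertex contains a monochromatic path OF THE CLOSED DISC from `v` to a vertex `w` of the cycle;
`w` lies on the inclusive arc of an outer vertex `s_i` of the colour of `v` -/
theorem mono_hit (s' : F.V' → Bool) {v : V} (hv : v ∈ F.T.VOf F.c.Left) {j : Fin 3} (h : F.map.Mono s' (F.iv v hv) (F.sv j)) :
    ∃ i w, w ∈ F.c.arc (F.lo i) (F.hi i) ∧ s' (F.sv i) = s' (F.iv v hv) ∧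
      F.T.Join F.c.Left {x | ∃ hx, s' (F.iv x hx) = s' (F.iv v hv)} v w := by
  have key : ∀ y, F.map.Mono s' (F.iv v hv) y →
      (∃ w hw, y = F.iv w hw ∧ F.T.Join F.c.Left {x | ∃ hx, s' (F.iv x hx) = s' (F.iv v hv)} v w) ∨
      (∃ i w, w ∈ F.c.arc (F.lo i) (F.hi i) ∧ s' (F.sv i) = s' (F.iv v hv) ∧
        F.T.Join F.c.Left {x | ∃ hx, s' (F.iv x hx) = s' (F.iv v hv)} v w) := by
    intro y hy
    induction hy with
    | refl => exact Or.inl ⟨v, hv, rfl, ⟨hv, rfl⟩, ReflTransGen.refl⟩
    | @tail b c _ hbc ih =>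
      rcases ih with ⟨w, hw, rfl, hj⟩ | h
      · have hcol : s' (F.iv w hw) = s' (F.iv v hv) := by
          obtain ⟨h0, hr⟩ := hj
          cases hr with
          | refl => rfl
          | tail _ h' => exact h'.2.2
        rcases c with ⟨w', hw'⟩ | i
        · left
          refine ⟨w', hw', rfl, hj.1, ReflTransGen.tail hj.2 ⟨(F.adj_iv_iff hw hw').1 hbc.1, hw', ?_⟩⟩
          exact hbc.2.symm.trans hcol
        · right
          exact ⟨i, w, (F.adj_sv_iff i hw).1 (F.map.adj_symm hbc.1), hbc.2.symm.trans hcol, hj⟩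
      · exact Or.inr h
  rcases key _ h with ⟨w, hw, e, -⟩ | h
  · cases e
  · exact h

theorem arc_sub_verts (i j : ℕ) : F.c.arc i j ⊆ F.c.verts := fun _ ⟨k, _, _, h⟩ => ⟨k, h⟩

/-- the two ends of an occupied dart of the disc which are joined to the closing face: one arm of each colour from the dart to the boundary cycle, inside the closed disc -/
theorem arm_hit (s' : F.V' → Bool) {d : D} (hd : d ∈ F.c.Left) (hocc : F.map.Occ s' (.inn ⟨d, hd⟩)) {i j : Fin 3}
    (h1 : F.map.Mono s' (F.map.src (.inn ⟨d, hd⟩)) (F.sv i)) (h2 : F.map.Mono s' (F.map.tgt (.inn ⟨d, hd⟩)) (F.sv j)) :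
    ∃ β : Bool, (∃ w ∈ F.c.verts, F.T.Join F.c.Left {x | ∃ hx, s' (F.iv x hx) = β} (F.T.src d) w) ∧
      ∃ w ∈ F.c.verts, F.T.Join F.c.Left {x | ∃ hx, s' (F.iv x hx) = !β} (F.T.tgt d) w := by
  obtain ⟨i', w, hw, -, hj⟩ := F.mono_hit s' (F.src_mem hd) h1
  obtain ⟨j', w', hw', -, hj'⟩ := F.mono_hit s' (F.tgt_mem hd) h2
  refine ⟨s' (F.iv _ (F.src_mem hd)), ⟨w, F.arc_sub_verts _ _ hw, hj⟩, w', F.arc_sub_verts _ _ hw', ?_⟩
  have e : s' (F.iv _ (F.tgt_mem hd)) = !s' (F.iv _ (F.src_mem hd)) := by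
    have h0 : s' (F.iv _ (F.src_mem hd)) ≠ s' (F.iv _ (F.tgt_mem hd)) := hocc
    revert h0
    generalize s' (F.iv _ (F.src_mem hd)) = x
    generalize s' (F.iv _ (F.tgt_mem hd)) = y
    revert x y
    decide
  rw [← e]
  exact hj'

/-! ## 5. counting colourings -/

/-- colourings of the sphere = colourings of the disc × three bits -/
def colEquiv : (F.V' → Bool) ≃ ({v // v ∈ F.T.VOf F.c.Left} → Bool) × (Fin 3 → Bool) := Equiv.sumArrowEquivProdArrow _ _ _

theorem colEquiv_fst (s' : F.V' → Bool) : (F.colEquiv s').1 = fun v => s' (Sum.inl v) := rfl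

/-- an event which reads the disc colours only: the three outer bits contribute the factor `8` -/
theorem card_disc_event (P : ({v // v ∈ F.T.VOf F.c.Left} → Bool) → Prop) :
    Nat.card {s' : F.V' → Bool // P fun v => s' (Sum.inl v)} = 8 * Nat.card {s // P s} := by
  have e : {s' : F.V' → Bool // P fun v => s' (Sum.inl v)} ≃ {s // P s} × (Fin 3 → Bool) :=
    { toFun := fun s' => (⟨fun v => s'.1 (Sum.inl v), s'.2⟩, fun j => s'.1 (Sum.inr j))
      invFun := fun x => ⟨Sum.elim x.1.1 x.2, x.1.2⟩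
      left_inv := by
        rintro ⟨s', h⟩
        apply Subtype.ext
        funext y
        rcases y with y | y <;> rfl
      right_inv := by
        rintro ⟨⟨s, h⟩, t⟩
        rfl }
  rw [Nat.card_congr e, Nat.card_prod, mul_comm]
  congr 1
  simp

theorem card_all : Nat.card (F.V' → Bool) = 8 * Nat.card ({v // v ∈ F.T.VOf F.c.Left} → Bool) := by
  rw [Nat.card_congr F.colEquiv, Nat.card_prod, mul_comm]
  congr 1
  simp

end PvFan

theorem pvfd_eqns_cite : True := by
  have := @PvFan.tr.eq_1; have := @PvFan.colEquiv.eq_1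
  trivial

end Claimed.Agent.R289
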