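import Claimed.Agent.R289.Fan.Obs

/-!
# Row 289 (S0537, Cardy for Poisson-Voronoi), unit OBC = P8.2, Fan/Cross : THE COEFFICIENT OF `w₁` IS AT MOST THE QUENCHED CROSSING PROBABILITY      (owner helper173, head helper91; prefix `pv82c_`, defs `pv82c*`)

TEX[prop:observable] (08-observable.tex), last assertion, in the form `≤` (ruling of 91: `PvNice` is a LOWER bound for the crossing, so only `coefficient ≤ crossing` is used: no Jordan, no Hex, no exclusivity).
ANY finite `PvMap` with `IsSph`, ANY dart `q` of the closing face: `s₀ = src q`, `s₂ = tgt q`, `s₁ = apex q`; probe `e` = a dart at `s₀`.      Counts are written `(Finset.univ.filter fun s => T.Tag s d ∧ T.InComp s d e).card` (= `obsN` of 91).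

* `pv82cSec T e q e'`    `e'` lies in the rot-sector from `e` up to `q`, `q` excluded
* `pv82cBk T q s`        the black vertices off the closing face
* `pv82cXB T q e s`      BLACK CROSSING: a path of black vertices off the closing face from the head of a dart of the sector to a neighbour of `s₁`
* `pv82c_walk`           no face of the sector on the wall of `q` ⟹ the probe lies in the component reached through the missing spoke `q`
* `pv82c_hit`            a face of the sector on the wall of `q` ⟹ a black head in the sector, `Mono`-joined to `s₁`      (`pl_w_bank` of 266)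
* `pv82c_det`            colours (white, black, white) on `(s₀, s₁, s₂)`, no black crossing ⟹ `Tag s q ∧ InComp s q e`
* `pv82c_half`           counting: an involution which flips the colour of one vertex
* `pv82c_cross_cnt`      `4 N(nxt² q) e ≤ #{s | black crossing}` from `pv82_sum`
* `pv82c_sec_iter`, `pv82c_sec_head`      the sector in terms of the iterates of `rot` at `q`
* **`pv82_cross_le`**    (X3) THE STATEMENT OF RECORD of 91, vocabulary `obsN Sec dcol XB` of `Fan/Obs`      0 sorry
-/

set_option autoImplicit false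
set_option linter.unusedSectionVars false
set_option linter.unusedVariables false

namespace Claimed.Agent.R289

open Relation

section defs

variable {V D : Type} (T : PvMap V D)

/-- `e'` lies in the rot-sector from `e` up to `q`, `q` excluded -/
def pv82cSec (e q e' : D) : Prop := ∃ k : ℕ, e' = T.rot^[k] e ∧ ∀ j ≤ k, T.rot^[j] e ≠ q

/-- the black vertices off the closing face -/
def pv82cBk (q : D) (s : V → Bool) : Set V := {v | s v = true ∧ v ≠ T.src q ∧ v ≠ T.tgt q ∧ v ≠ T.apex q}

/-- BLACK CROSSING: a path of black vertices off the closing face from the head of a dart of the sector to a neighbour of `s₁ = apex q` -/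
def pv82cXB (q e : D) (s : V → Bool) : Prop :=
  ∃ a b : V, (∃ e', pv82cSec T e q e' ∧ T.tgt e' = a) ∧ a ∈ pv82cBk T q s ∧
    ReflTransGen (fun u v => T.Adj u v ∧ v ∈ pv82cBk T q s) a b ∧ T.Adj b (T.apex q)

theorem pv82c_eqns_cite : True := by
  have := @pv82cSec.eq_1; have := @pv82cBk.eq_1; have := @pv82cXB.eq_1
  trivial

end defs

section det

variable {V D : Type} {T : PvMap V D}

/-- **the walk round `s₀`** -/
theorem pv82c_walk {s : V → Bool} {q e : D} {n : ℕ} (hn : T.rot^[n] e = q) (hoff : ∀ k < n, ¬ T.Wall s q (T.rot^[k] e)) : T.InComp s q e := by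
  have key : ∀ m, m ≤ n → T.InComp s q (T.rot^[n - m] e) := by
    intro m
    induction m with
    | zero =>
      intro _
      rw [Nat.sub_zero, hn]
      exact ReflTransGen.refl
    | succ m ih =>
      intro hm
      have h1 := ih (by omega)
      have e1 : n - m = (n - (m + 1)) + 1 := by omega
      rw [e1, Function.iterate_succ_apply'] at h1
      obtain ⟨d, hd⟩ : ∃ d, d = T.rot^[n - (m + 1)] e := ⟨_, rfl⟩
      have hw : ¬ T.Wall s q d := by rw [hd]; exact hoff _ (by omega)
      rw [← hd] at h1 ⊢
      have s1 : T.CStep s q (T.rot d) (T.nxt (T.nxt d)) := Or.inl (by unfold PvMap.rot; rw [T.opp_opp])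
      have s2 : T.CStep s q (T.nxt (T.nxt d)) d :=
        Or.inr ⟨Or.inr (Or.inl (T.nxt3 d).symm), fun h => hw (pl_w_trans h (pl_w_sf s (Or.inr (Or.inl (T.nxt3 d).symm))))⟩
      exact (h1.tail s1).tail s2
  have := key n le_rfl
  rwa [Nat.sub_self] at this

/-- **a face of the sector on the wall** gives a black head in the sector, joined to `s₁` -/
theorem pv82c_hit {s : V → Bool} {q e : D} (h0 : s (T.src q) = false) (h2 : s (T.tgt q) = false) (h1 : s (T.apex q) = true) (he : T.src e = T.src q)
    {n : ℕ} (hn : T.rot^[n] e = q) (hmin : ∀ j < n, T.rot^[j] e ≠ q) {k : ℕ} (hk : k < n) (hw : T.Wall s q (T.rot^[k] e)) :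
    ∃ e', pv82cSec T e q e' ∧ s (T.tgt e') = true ∧ T.Mono s (T.tgt e') (T.apex q) := by
  have hq : T.Tag s q := ⟨h0.trans h2.symm, by rw [h1, h0]; decide⟩
  obtain ⟨d, hd⟩ : ∃ d, d = T.rot^[k] e := ⟨_, rfl⟩
  rw [← hd] at hw
  have hsd : s (T.src d) = false := by rw [hd, T.src_rot_iter, he, h0]
  obtain ⟨b, hb, ho⟩ := T.wall_occ hq hw
  have hcol : s (T.tgt d) = true ∨ s (T.apex d) = true := by
    unfold PvMap.Occ at ho
    rcases hb with rfl | rfl | rfl
    · rw [hsd] at ho
      left
      revert ho
      generalize s (T.tgt b) = x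
      revert x
      decide
    · rw [T.src_nxt, T.tgt_nxt] at ho
      revert ho
      generalize s (T.tgt d) = x
      generalize s (T.apex d) = y
      revert x y
      decide
    · rw [T.src_nxt2, T.tgt_nxt2, hsd] at ho
      right
      revert ho
      generalize s (T.apex d) = x
      revert x
      decide
  rcases hcol with hc | hc
  · refine ⟨d, ⟨k, hd, fun j hj => hmin j (by omega)⟩, hc, ?_⟩
    have hW : T.Wall s (T.nxt d) (T.nxt (T.nxt q)) :=
      pl_w_trans (pl_w_sf s (T.sf_symm (T.sf_nxt d))) (pl_w_trans (pl_w_symm hw) (pl_w_sf s (T.sf_nxt2 q)))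
    exact pl_w_bank hW (by rw [T.src_nxt, T.src_nxt2, hc, h1])
  · have hk1 : k + 1 ≠ n := by
      intro hkn
      have : T.rot d = q := by rw [hd, ← hn, ← hkn, Function.iterate_succ_apply']
      have h3 : T.tgt (T.rot d) = T.apex d := T.tgt_rot d
      rw [this] at h3
      rw [← h3, h2] at hc
      exact absurd hc (by decide)
    refine ⟨T.rot d, ⟨k + 1, by rw [hd, Function.iterate_succ_apply'], fun j hj => hmin j (by omega)⟩, by rw [T.tgt_rot, hc], ?_⟩
    have hW : T.Wall s (T.nxt (T.nxt d)) (T.nxt (T.nxt q)) :=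
      pl_w_trans (pl_w_sf s (T.sf_symm (T.sf_nxt2 d))) (pl_w_trans (pl_w_symm hw) (pl_w_sf s (T.sf_nxt2 q)))
    rw [T.tgt_rot]
    exact pl_w_bank hW (by rw [T.src_nxt2, T.src_nxt2, hc, h1])

/-- a black path to `s₁` contains a path of vertices off the closing face up to a neighbour of `s₁` -/
theorem pv82c_extract {s : V → Bool} {q : D} (h0 : s (T.src q) = false) (h2 : s (T.tgt q) = false) {y : V} (hy : y ∈ pv82cBk T q s)
    (h : T.Mono s y (T.apex q)) : ∃ b, ReflTransGen (fun u v => T.Adj u v ∧ v ∈ pv82cBk T q s) y b ∧ T.Adj b (T.apex q) := by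
  have key : ∀ z, T.Mono s y z → (∃ b, ReflTransGen (fun u v => T.Adj u v ∧ v ∈ pv82cBk T q s) y b ∧ T.Adj b (T.apex q)) ∨
      (ReflTransGen (fun u v => T.Adj u v ∧ v ∈ pv82cBk T q s) y z ∧ z ∈ pv82cBk T q s) := by
    intro z hz
    induction hz with
    | refl => exact Or.inr ⟨ReflTransGen.refl, hy⟩
    | @tail z z' _ hstep ih =>
      rcases ih with ih | ⟨ih, hz⟩
      · exact Or.inl ih
      · by_cases hz' : z' = T.apex q
        · exact Or.inl ⟨z, ih, hz' ▸ hstep.1⟩
        · have hb : s z' = true := by rw [← hstep.2]; exact hz.1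
          have hB : z' ∈ pv82cBk T q s :=
            ⟨hb, fun h => by rw [h, h0] at hb; exact absurd hb (by decide), fun h => by rw [h, h2] at hb; exact absurd hb (by decide), hz'⟩
          exact Or.inr ⟨ih.tail ⟨hstep.1, hB⟩, hB⟩
  rcases key _ h with h | ⟨_, h⟩
  · exact h
  · exact absurd rfl h.2.2.2

/-- **the deterministic step**: colours (white, black, white) on `(s₀, s₁, s₂)` and no black crossing ⟹ the probe lies in the component reached through the missing spoke `q` -/
theorem pv82c_det (hT : T.IsSph) {s : V → Bool} {q e : D} (h0 : s (T.src q) = false) (h2 : s (T.tgt q) = false) (h1 : s (T.apex q) = true)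
    (he : T.src e = T.src q) (hs1 : ∀ e', pv82cSec T e q e' → T.tgt e' ≠ T.apex q) (hX : ¬ pv82cXB T q e s) : T.Tag s q ∧ T.InComp s q e := by
  classical
  refine ⟨⟨h0.trans h2.symm, by rw [h1, h0]; decide⟩, ?_⟩
  have hex := hT.link e q he
  have hn := Nat.find_spec hex
  have hmin : ∀ j < Nat.find hex, T.rot^[j] e ≠ q := fun j hj => Nat.find_min hex hj
  refine pv82c_walk hn fun k hk hw => hX ?_
  obtain ⟨e', hS, hc, hM⟩ := pv82c_hit h0 h2 h1 he hn hmin hk hw
  have hB : T.tgt e' ∈ pv82cBk T q s :=
    ⟨hc, fun h => by rw [h, h0] at hc; exact absurd hc (by decide), fun h => by rw [h, h2] at hc; exact absurd hc (by decide), hs1 e' hS⟩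
  obtain ⟨b, hb1, hb2⟩ := pv82c_extract h0 h2 hB hM
  exact ⟨T.tgt e', b, ⟨e', hS, rfl⟩, hB, hb1, hb2⟩

end det

/-! ## the global flip -/

section flip

variable {V D : Type} {T : PvMap V D}

theorem pv82c_occ_flip (s : V → Bool) (d : D) : T.Occ (fun v => !s v) d ↔ T.Occ s d := by
  show (!s (T.src d)) ≠ (!s (T.tgt d)) ↔ s (T.src d) ≠ s (T.tgt d)
  generalize s (T.src d) = x
  generalize s (T.tgt d) = y
  revert x y
  decide

theorem pv82c_tag_flip (s : V → Bool) (d : D) : T.Tag (fun v => !s v) d ↔ T.Tag s d := by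
  show ((!s (T.src d)) = (!s (T.tgt d)) ∧ (!s (T.apex d)) ≠ (!s (T.src d))) ↔ (s (T.src d) = s (T.tgt d) ∧ s (T.apex d) ≠ s (T.src d))
  generalize s (T.src d) = x
  generalize s (T.tgt d) = y
  generalize s (T.apex d) = z
  revert x y z
  decide

theorem pv82c_wall_flip (s : V → Bool) : T.Wall (fun v => !s v) = T.Wall s := by
  funext d d'
  unfold PvMap.Wall
  have : (fun a b => T.SF a b ∨ (T.Occ (fun v => !s v) a ∧ b = T.opp a)) = (fun a b => T.SF a b ∨ (T.Occ s a ∧ b = T.opp a)) := by
    funext a b
    rw [pv82c_occ_flip]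
  rw [this]

theorem pv82c_incomp_flip (s : V → Bool) : T.InComp (fun v => !s v) = T.InComp s := by
  funext d e
  unfold PvMap.InComp
  have : T.CStep (fun v => !s v) d = T.CStep s d := by
    funext a b
    unfold PvMap.CStep
    rw [pv82c_wall_flip]
  rw [this]

end flip

/-! ## counting -/

section count

open Classical

variable {V : Type} [Fintype V]

/-- the number of colourings with the property `A` (no decidability in the way) -/
noncomputable def pv82cCnt (A : (V → Bool) → Prop) : ℕ := (Finset.univ.filter A).card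

theorem pv82c_cnt_eqns_cite : True := by
  have := @pv82cCnt.eq_1
  trivial

theorem pv82c_cnt_eq (A : (V → Bool) → Prop) [inst : Fintype (V → Bool)] [DecidablePred A] : ((@Finset.univ _ inst).filter A).card = pv82cCnt A := by
  unfold pv82cCnt
  congr!

theorem pv82c_cnt_mono {A B : (V → Bool) → Prop} (h : ∀ s, A s → B s) : pv82cCnt A ≤ pv82cCnt B := by
  classical
  unfold pv82cCnt
  exact Finset.card_le_card fun s hs => Finset.mem_filter.2 ⟨Finset.mem_univ _, h s (Finset.mem_filter.1 hs).2⟩

theorem pv82c_cnt_split (A B : (V → Bool) → Prop) : pv82cCnt (fun s => A s ∧ B s) + pv82cCnt (fun s => A s ∧ ¬ B s) = pv82cCnt A := by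
  classical
  have h2 := Finset.card_filter_add_card_filter_not (s := Finset.univ.filter A) B
  rw [Finset.filter_filter, Finset.filter_filter, pv82c_cnt_eq, pv82c_cnt_eq, pv82c_cnt_eq] at h2
  exact h2

theorem pv82c_cnt_true : pv82cCnt (fun _ : V → Bool => True) = 2 ^ Fintype.card V := by
  classical
  rw [← pv82c_cnt_eq, Finset.filter_true_of_mem (fun _ _ => trivial), Finset.card_univ, Fintype.card_fun, Fintype.card_bool]

/-- an involution of the colourings which flips the colour of `v` halves every invariant event -/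
theorem pv82c_half (φ : (V → Bool) → (V → Bool)) (hφ : ∀ s, φ (φ s) = s) (v : V) (hv : ∀ s, φ s v = !s v)
    (A : (V → Bool) → Prop) (hA : ∀ s, A (φ s) ↔ A s) (b0 : Bool) : pv82cCnt A = 2 * pv82cCnt (fun s => A s ∧ s v = b0) := by
  classical
  have h1 : pv82cCnt (fun s => A s ∧ ¬ s v = b0) = pv82cCnt (fun s => A s ∧ s v = b0) := by
    unfold pv82cCnt
    refine Finset.card_nbij' φ φ ?_ ?_ (fun s _ => hφ s) (fun s _ => hφ s)
    · intro s hs
      simp only [Finset.coe_filter, Finset.mem_univ, true_and, Set.mem_ofPred_eq] at hs ⊢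
      refine ⟨(hA s).2 hs.1, ?_⟩
      rw [hv]
      have h3 := hs.2
      clear hs
      revert h3
      generalize s v = x
      revert x b0
      decide
    · intro s hs
      simp only [Finset.coe_filter, Finset.mem_univ, true_and, Set.mem_ofPred_eq] at hs ⊢
      refine ⟨(hA s).2 hs.1, ?_⟩
      rw [hv, hs.2]
      clear hs
      revert b0
      decide
  have h2 := pv82c_cnt_split A (fun s => s v = b0)
  omega

/-- an event which does not look at the colour of `v` -/
theorem pv82c_half_upd (v : V) (A : (V → Bool) → Prop) (hA : ∀ s b, A (Function.update s v b) ↔ A s) (b0 : Bool) :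
    pv82cCnt A = 2 * pv82cCnt (fun s => A s ∧ s v = b0) := by
  classical
  refine pv82c_half (fun s => Function.update s v (!s v)) (fun s => ?_) v (fun s => ?_) A (fun s => hA s _) b0
  · simp only [Function.update_self, Bool.not_not, Function.update_idem, Function.update_eq_self]
  · simp only [Function.update_self]

/-- an event which does not look at the colours of three distinct vertices -/
theorem pv82c_eighth {x y z : V} (hxy : x ≠ y) (hxz : x ≠ z) (hyz : y ≠ z) (A : (V → Bool) → Prop)
    (hx : ∀ s b, A (Function.update s x b) ↔ A s) (hy : ∀ s b, A (Function.update s y b) ↔ A s) (hz : ∀ s b, A (Function.update s z b) ↔ A s)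
    (bx by' bz : Bool) : pv82cCnt A = 8 * pv82cCnt (fun s => A s ∧ s x = bx ∧ s y = by' ∧ s z = bz) := by
  classical
  have h1 := pv82c_half_upd x A hx bx
  have h2 := pv82c_half_upd y (fun s => A s ∧ s x = bx) (fun s b => by rw [hy, Function.update_of_ne hxy]) by'
  have h3 := pv82c_half_upd z (fun s => (A s ∧ s x = bx) ∧ s y = by') (fun s b => by rw [hz, Function.update_of_ne hxz, Function.update_of_ne hyz]) bz
  have e : (fun s : V → Bool => ((A s ∧ s x = bx) ∧ s y = by') ∧ s z = bz) = fun s => A s ∧ s x = bx ∧ s y = by' ∧ s z = bz := by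
    funext s
    exact propext (by tauto)
  rw [e] at h3
  omega

end count

/-! ## the coefficient of `w₁` -/

section main

open Classical

variable {V D : Type} [Fintype V] {T : PvMap V D}

theorem pv82c_bk_upd (q : D) (s : V → Bool) {x : V} (hx : x = T.src q ∨ x = T.tgt q ∨ x = T.apex q) (b : Bool) :
    pv82cBk T q (Function.update s x b) = pv82cBk T q s := by
  ext v
  unfold pv82cBk
  simp only [Set.mem_ofPred_eq]
  by_cases hv : v = x
  · subst hv
    constructor
    · rintro ⟨-, h1, h2, h3⟩
      rcases hx with h | h | h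
      · exact absurd h h1
      · exact absurd h h2
      · exact absurd h h3
    · rintro ⟨-, h1, h2, h3⟩
      rcases hx with h | h | h
      · exact absurd h h1
      · exact absurd h h2
      · exact absurd h h3
  · rw [Function.update_of_ne hv]

/-- the crossing does not look at the colours of the closing face -/
theorem pv82c_XB_upd (q e : D) (s : V → Bool) {x : V} (hx : x = T.src q ∨ x = T.tgt q ∨ x = T.apex q) (b : Bool) :
    pv82cXB T q e (Function.update s x b) ↔ pv82cXB T q e s := by
  unfold pv82cXB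
  rw [pv82c_bk_upd q s hx b]

/-- **the coefficient of `w₁` is at most the number of black crossings**, count form -/
theorem pv82c_cross_cnt (hT : T.IsSph) {q e : D} (he : T.src e = T.src q) (hs1 : ∀ e', pv82cSec T e q e' → T.tgt e' ≠ T.apex q)
    (hsum : 4 * (pv82cCnt (fun s => T.Tag s q ∧ T.InComp s q e) + pv82cCnt (fun s => T.Tag s (T.nxt q) ∧ T.InComp s (T.nxt q) e)
      + pv82cCnt (fun s => T.Tag s (T.nxt (T.nxt q)) ∧ T.InComp s (T.nxt (T.nxt q)) e)) = 2 ^ Fintype.card V) :
    4 * pv82cCnt (fun s => T.Tag s (T.nxt (T.nxt q)) ∧ T.InComp s (T.nxt (T.nxt q)) e) ≤ pv82cCnt (pv82cXB T q e) := by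
  have hxy : T.src q ≠ T.tgt q := (T.tgt_ne_src q).symm
  have hxz : T.src q ≠ T.apex q := (T.apex_ne_src q).symm
  have hyz : T.tgt q ≠ T.apex q := (T.apex_ne_tgt q).symm
  have a1 := pv82c_eighth hxy hxz hyz (pv82cXB T q e) (fun s b => pv82c_XB_upd q e s (Or.inl rfl) b) (fun s b => pv82c_XB_upd q e s (Or.inr (Or.inl rfl)) b)
    (fun s b => pv82c_XB_upd q e s (Or.inr (Or.inr rfl)) b) false false true
  have a2 := pv82c_eighth hxy hxz hyz (fun _ => True) (fun s b => Iff.rfl) (fun s b => Iff.rfl) (fun s b => Iff.rfl) false false true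
  have a3 := pv82c_cnt_split (fun s : V → Bool => True ∧ s (T.src q) = false ∧ s (T.tgt q) = false ∧ s (T.apex q) = true) (pv82cXB T q e)
  have a4 : (fun s : V → Bool => (True ∧ s (T.src q) = false ∧ s (T.tgt q) = false ∧ s (T.apex q) = true) ∧ pv82cXB T q e s)
      = fun s => pv82cXB T q e s ∧ s (T.src q) = false ∧ s (T.tgt q) = false ∧ s (T.apex q) = true := by
    funext s
    exact propext (by tauto)
  have a5 := pv82c_half (fun (s : V → Bool) v => !s v) (fun s => by funext v; simp only [Bool.not_not]) (T.apex q) (fun s => rfl)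
    (fun s => T.Tag s q ∧ T.InComp s q e) (fun s => by rw [pv82c_tag_flip, pv82c_incomp_flip]) true
  have a6 : pv82cCnt (fun s : V → Bool => (True ∧ s (T.src q) = false ∧ s (T.tgt q) = false ∧ s (T.apex q) = true) ∧ ¬ pv82cXB T q e s)
      ≤ pv82cCnt (fun s => (T.Tag s q ∧ T.InComp s q e) ∧ s (T.apex q) = true) :=
    pv82c_cnt_mono fun s hs => ⟨pv82c_det hT hs.1.2.1 hs.1.2.2.1 hs.1.2.2.2 he hs1 hs.2, hs.1.2.2.2⟩
  rw [a4] at a3
  rw [pv82c_cnt_true] at a2
  generalize 2 ^ Fintype.card V = P at *
  omega

/-! ## the sector -/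

theorem pv82c_rot_inj : Function.Injective T.rot := fun a b h => by
  have := congrArg T.rotInv h
  rwa [T.rotInv_rot, T.rotInv_rot] at this

/-- in a simple map the heads of the sector avoid `s₁` as soon as the probe is not `s₀ → s₁` -/
theorem pv82c_sec_head (hS : T.Simple) {q e : D} (he : T.src e = T.src q) (hne : e ≠ T.rot q) : ∀ e', pv82cSec T e q e' → T.tgt e' ≠ T.apex q := by
  rintro e' ⟨k, rfl, hk⟩ h
  have h1 : T.rot^[k] e = T.rot q := hS _ _ (by rw [T.src_rot_iter, he, T.src_rot]) (by rw [h, T.tgt_rot])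
  cases k with
  | zero => exact hne h1
  | succ k =>
    rw [Function.iterate_succ_apply'] at h1
    exact hk k (by omega) (pv82c_rot_inj h1)

/-- the sector in terms of the iterates of `rot` at `q` (`N` = the degree of `s₀`) -/
theorem pv82c_sec_iter {q : D} {N i : ℕ} (hN : T.rot^[N] q = q) (hmin : ∀ j, 0 < j → j < N → T.rot^[j] q ≠ q) (hi : 0 < i) (hiN : i ≤ N) (e' : D) :
    pv82cSec T (T.rot^[i] q) q e' ↔ ∃ k, i ≤ k ∧ k < N ∧ e' = T.rot^[k] q := by
  constructor
  · rintro ⟨k, rfl, hk⟩
    refine ⟨k + i, by omega, ?_, by rw [Function.iterate_add_apply]⟩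
    by_contra hcon
    refine hk (N - i) (by omega) ?_
    rw [← Function.iterate_add_apply, Nat.sub_add_cancel hiN, hN]
  · rintro ⟨k, h1, h2, rfl⟩
    refine ⟨k - i, by rw [← Function.iterate_add_apply, Nat.sub_add_cancel h1], fun j hj => ?_⟩
    rw [← Function.iterate_add_apply]
    exact hmin (j + i) (by omega) (by omega)

/-- the crossing in the vocabulary of record (`Fan/Obs`) -/
theorem pv82c_XB_dict {q e : D} {s : V → Bool} (h : pv82cXB T q e s) : T.XB q e (T.dcol q s true) := by
  obtain ⟨a, b, ⟨e', hS, rfl⟩, ha, hab, hb⟩ := h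
  have hsub : ∀ v, v ∈ pv82cBk T q s → v ∈ T.dcol q s true := fun v hv => ⟨hv.2.1, hv.2.2.1, hv.2.2.2, hv.1⟩
  refine ⟨e', hS, b, hb, hsub _ ha, ?_⟩
  refine ReflTransGen.mono (fun u v huv => ⟨?_, hsub _ huv.2⟩) _ _ hab
  obtain ⟨d, h1, h2⟩ := huv.1
  exact ⟨d, Or.inl trivial, h1, h2⟩

/-- **(X3) `pv82_cross_le`** (statement of record of 91): the coefficient of `w₁` at the fan probe `e` is at most the quenched probability of the black vertex crossing -/
theorem pv82_cross_le [Finite D] (hT : T.IsSph) (hS : T.Simple) {q e : D} (h1 : T.src e = T.src q) (h3 : e ≠ T.rot q) :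
    4 * T.obsN (T.nxt (T.nxt q)) e ≤ (Finset.univ.filter fun s : V → Bool => T.XB q e (T.dcol q s true)).card := by
  have hsum := pv82_sum hT q e
  unfold PvMap.obsN at hsum ⊢
  simp only [pv82c_cnt_eq] at hsum ⊢
  exact (pv82c_cross_cnt hT h1 (pv82c_sec_head hS h1 h3) hsum).trans (pv82c_cnt_mono fun s h => pv82c_XB_dict h)

end main

end Claimed.Agent.R289
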