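-- KEEP
import Claimed.Agent.R289.Fan.Obs
import Claimed.Agent.R289.Obs.ArmD
import Claimed.Agent.R289.Obs.Col
import Claimed.Agent.R289.Cr.Main

/-!
# Row 289 (S0537, Cardy for Poisson-Voronoi), box P82 (head helper91), file Fan/ObsArm : THE ARM TEST OF THE OBSERVABLE      (owner helper119; prefix `pv82a_`, defs `Pv82a*`, `pv82a*`)

TEX: 08-observable.tex, proof of Lemma 8.3, estimate (8.2) `|F_m^η - F_{m'}^η| ≤ 4 q_{s,ρ}(η)`.      ANY finite `PvMap`, ANY dart `q` (instance: a dart of the closing face `t_*`).      Vocabulary of `Fan/Obs.lean` (91): `obsN obsF ArmEv DIn dcol`.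

* sec.1  counting: `pv82a_diff` (difference of two counts), `pv82a_three` (the three tags of one face are exclusive)
* sec.2  **`pv82a_gen`**  EVENT-AGNOSTIC bound: if for every colouring and every tag `d` of the face of `q` the two probes see the same side or `Ev s` holds, then `‖F e - F e'‖ ≤ 4 #Ev / 2^|V|`
* sec.3  the pointwise test: `pv82a_test` (the indicator of the component changes along a dual path only in a face of the wall), `pv82a_bank`, **`pv82a_pt`** (`DIn A e e'` ⟹ same side or `ArmEv q A s`), **`pv82a_arm`**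
* sec.4  the arm event inside the disc: a `Mono` path to the closing face, cut at its first arrival: `pv82a_cut`, `Pv82aArmD`, `pv82a_armD`, **`pv82a_arm_disc`**
* sec.5  THE EVENT OF RECORD `PvoaEv` (184, Obs/ArmD; primal comparison path `X`): **`pv82a_rec`** (count form, `obsF` of 91), **`pv82a_rec_law`** (`‖obs q e - obs q e'‖ ≤ 4 colLaw V {PvoaEv}`, `obs` of 7, Cr/Main), `pv82a_rec_le` (transfer to the colours of an index set `I`: the form consumed by ARM-TOP), `Pv82aSite` + `pv82a_site_congr` (the event read on the disc sites only),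
        dictionary of the three integrands: `pv82a_selH` (`selH` of 7 `= pvoaG` of 184 at the labels `pv82aW = (1, ω̄, ω)`), `pv82a_W_norm`
-/

set_option autoImplicit false

namespace Claimed.Agent.R289

open Relation

variable {V D : Type} {T : PvMap V D}

/-! ## 1. counting -/

section count

variable [Fintype V]

/-- difference of two counts -/
theorem pv82a_diff {α : Type} [DecidableEq α] (A B C : Finset α) (h1 : A \ B ⊆ C) (h2 : B \ A ⊆ C) : |(A.card : ℝ) - (B.card : ℝ)| ≤ (C.card : ℝ) := by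
  have e1 : (A \ B).card + (A ∩ B).card = A.card := Finset.card_sdiff_add_card_inter A B
  have e2 : (B \ A).card + (B ∩ A).card = B.card := Finset.card_sdiff_add_card_inter B A
  rw [Finset.inter_comm] at e2
  have c1 := Finset.card_le_card h1
  have c2 := Finset.card_le_card h2
  have key : |(A.card : ℤ) - (B.card : ℤ)| ≤ (C.card : ℤ) := by
    rw [abs_le]
    constructor <;> omega
  exact_mod_cast key

open Classical in
/-- the three tags of one face are exclusive -/
theorem pv82a_three (q : D) (P : (V → Bool) → Prop) :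
    (Finset.univ.filter fun s : V → Bool => T.Tag s q ∧ P s).card + (Finset.univ.filter fun s : V → Bool => T.Tag s (T.nxt q) ∧ P s).card +
      (Finset.univ.filter fun s : V → Bool => T.Tag s (T.nxt (T.nxt q)) ∧ P s).card ≤ (Finset.univ.filter fun s : V → Bool => P s).card := by
  have hne1 : T.nxt q ≠ q := fun h => T.src_ne q (by rw [h])
  have hne2 : T.nxt (T.nxt q) ≠ T.nxt q := fun h => T.src_ne (T.nxt q) (by rw [h])
  have hne3 : T.nxt (T.nxt q) ≠ q := fun h => hne1 (by
    have := T.nxt3 q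
    rw [h] at this
    exact this)
  rw [← Finset.card_union_of_disjoint, ← Finset.card_union_of_disjoint]
  · refine Finset.card_le_card fun s hs => ?_
    simp only [Finset.mem_union, Finset.mem_filter, Finset.mem_univ, true_and] at hs ⊢
    rcases hs with (h | h) | h <;> exact h.2
  · rw [Finset.disjoint_left]
    intro s hs hs'
    simp only [Finset.mem_union, Finset.mem_filter, Finset.mem_univ, true_and] at hs hs'
    rcases hs with h | h
    · exact hne3 (T.tag_unique s h.1 hs'.1 (T.sf_nxt2 q))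
    · exact hne2 (T.tag_unique s h.1 hs'.1 (T.sf_nxt (T.nxt q)))
  · rw [Finset.disjoint_left]
    intro s hs hs'
    simp only [Finset.mem_filter, Finset.mem_univ, true_and] at hs hs'
    exact hne1 (T.tag_unique s hs.1 hs'.1 (T.sf_nxt q))

open Classical in
/-- one tag: the two counts differ by at most the number of colourings with this tag and the event -/
theorem pv82a_one {d e e' : D} (Ev : (V → Bool) → Prop) (h : ∀ s, T.Tag s d → (T.InComp s d e ↔ T.InComp s d e') ∨ Ev s) :
    |(T.obsN d e : ℝ) - (T.obsN d e' : ℝ)| ≤ ((Finset.univ.filter fun s : V → Bool => T.Tag s d ∧ Ev s).card : ℝ) := by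
  unfold PvMap.obsN
  refine pv82a_diff _ _ _ ?_ ?_
  · intro s hs
    simp only [Finset.mem_sdiff, Finset.mem_filter, Finset.mem_univ, true_and] at hs ⊢
    exact ⟨hs.1.1, (h s hs.1.1).resolve_left fun h' => hs.2 ⟨hs.1.1, h'.1 hs.1.2⟩⟩
  · intro s hs
    simp only [Finset.mem_sdiff, Finset.mem_filter, Finset.mem_univ, true_and] at hs ⊢
    exact ⟨hs.1.1, (h s hs.1.1).resolve_left fun h' => hs.2 ⟨hs.1.1, h'.2 hs.1.2⟩⟩

/-! ## 2. the event-agnostic bound -/

open Classical in
/-- **(8.2), event-agnostic form** -/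
theorem pv82a_gen {q e e' : D} (Ev : (V → Bool) → Prop) (h : ∀ s d, T.SF q d → T.Tag s d → (T.InComp s d e ↔ T.InComp s d e') ∨ Ev s) :
    ‖T.obsF q e - T.obsF q e'‖ ≤ 4 * ((Finset.univ.filter fun s : V → Bool => Ev s).card : ℝ) / 2 ^ Fintype.card V := by
  have h0 := pv82a_one (T := T) (d := q) (e := e) (e' := e') Ev fun s => h s q (T.sf_refl q)
  have h1 := pv82a_one (T := T) (d := T.nxt q) (e := e) (e' := e') Ev fun s => h s _ (T.sf_nxt q)
  have h2 := pv82a_one (T := T) (d := T.nxt (T.nxt q)) (e := e) (e' := e') Ev fun s => h s _ (T.sf_nxt2 q)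
  have h3 : (((Finset.univ.filter fun s : V → Bool => T.Tag s q ∧ Ev s).card : ℝ) + ((Finset.univ.filter fun s : V → Bool => T.Tag s (T.nxt q) ∧ Ev s).card : ℝ) +
      ((Finset.univ.filter fun s : V → Bool => T.Tag s (T.nxt (T.nxt q)) ∧ Ev s).card : ℝ)) ≤ ((Finset.univ.filter fun s : V → Bool => Ev s).card : ℝ) := by
    exact_mod_cast pv82a_three (T := T) q Ev
  have hc : ‖(starRingEnd ℂ) pvOm‖ = 1 := by rw [RCLike.norm_conj, pv82_om_norm]
  have e1 : T.obsF q e - T.obsF q e' = 4 / 2 ^ Fintype.card V * ((((T.obsN q e : ℝ) - (T.obsN q e' : ℝ) : ℝ) : ℂ) +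
      (starRingEnd ℂ) pvOm * (((T.obsN (T.nxt q) e : ℝ) - (T.obsN (T.nxt q) e' : ℝ) : ℝ) : ℂ) +
      pvOm * (((T.obsN (T.nxt (T.nxt q)) e : ℝ) - (T.obsN (T.nxt (T.nxt q)) e' : ℝ) : ℝ) : ℂ)) := by
    unfold PvMap.obsF
    push_cast
    ring
  have hp : (0 : ℝ) < 2 ^ Fintype.card V := by positivity
  have n1 : ‖(4 / 2 ^ Fintype.card V : ℂ)‖ = 4 / 2 ^ Fintype.card V := by
    rw [norm_div, norm_pow]
    norm_num
  rw [e1, norm_mul, n1, mul_div_right_comm]
  refine mul_le_mul_of_nonneg_left ?_ (by positivity)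
  refine (norm_add₃_le).trans ?_
  rw [norm_mul, norm_mul, hc, pv82_om_norm, one_mul, one_mul, Complex.norm_real, Complex.norm_real, Complex.norm_real, Real.norm_eq_abs, Real.norm_eq_abs,
    Real.norm_eq_abs]
  linarith

end count

/-! ## 3. the pointwise test -/

/-- **(X6)**: the indicator of the component changes along a dual path only in a face of the wall -/
theorem pv82a_test {s : V → Bool} {d e e' : D} {A : Set D} (hp : T.DIn A e e') (hne : ¬ (T.InComp s d e ↔ T.InComp s d e')) :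
    ∃ a ∈ A, T.Wall s d a := by
  obtain ⟨-, hp⟩ := hp
  induction hp with
  | refl => exact absurd Iff.rfl hne
  | @tail a b _ hab ih =>
    by_cases h1 : T.InComp s d e ↔ T.InComp s d a
    · obtain ⟨rfl | rfl, hbA⟩ := hab
      · refine ⟨_, hbA, ?_⟩
        by_contra hw
        exact hne (h1.trans (pv82_inc_sf (fun h => hw ((pv82_wall_sf (T.sf_nxt a)).2 h)) (T.sf_nxt a)).symm)
      · exact absurd (h1.trans pv82_inc_opp.symm) hne
    · exact ih h1

/-- **BANKS**: every vertex of a face of the wall through a tagged face is `Mono`-joined to a vertex of that face -/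
theorem pv82a_bank {s : V → Bool} {q d c : D} (hq : T.SF q d) (hd : T.Tag s d) (hc : T.Wall s d c) : ∃ x, T.SF q x ∧ T.Mono s (T.src c) (T.src x) := by
  by_cases h : s (T.src c) = s (T.src d)
  · exact ⟨d, hq, pl_w_bank (PvMap.Wall.symm T hc) h⟩
  · refine ⟨T.nxt (T.nxt d), T.sf_trans hq (T.sf_nxt2 d), pl_w_bank (PvMap.Wall.trans T (PvMap.Wall.symm T hc) (PvMap.Wall.of_SF T s (T.sf_nxt2 d))) ?_⟩
    rw [T.src_nxt2]
    have h2 := hd.2
    revert h h2
    cases s (T.src d) <;> cases s (T.src c) <;> cases s (T.apex d) <;> simp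

theorem pv82a_face_mem {A : Set D} (hA : T.FaceSet A) {a b : D} (ha : a ∈ A) (h : T.SF a b) : b ∈ A := by
  rcases h with rfl | rfl | rfl
  · exact ha
  · exact (hA a).2 ha
  · exact (hA _).2 ((hA a).2 ha)

/-- a face of `A` on the wall through a tag of the face of `q` gives the arm event -/
theorem pv82a_arm_of {s : V → Bool} {q d a : D} {A : Set D} (hA : T.FaceSet A) (hq : T.SF q d) (hd : T.Tag s d) (ha : a ∈ A) (hw : T.Wall s d a) :
    T.ArmEv q A s := by
  obtain ⟨b, hab, hb⟩ := T.wall_occ hd hw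
  have hwb : T.Wall s d b := PvMap.Wall.trans T hw (PvMap.Wall.of_SF T s hab)
  exact ⟨b, pv82a_face_mem hA ha hab, hb, pv82a_bank hq hd hwb, pv82a_bank hq hd (PvMap.Wall.trans T hwb (PvMap.Wall.of_SF T s (T.sf_nxt b)))⟩

/-- **the pointwise test** -/
theorem pv82a_pt {A : Set D} (hA : T.FaceSet A) {q e e' : D} (hp : T.DIn A e e') (s : V → Bool) (d : D) (hq : T.SF q d) (hd : T.Tag s d) :
    (T.InComp s d e ↔ T.InComp s d e') ∨ T.ArmEv q A s := by
  by_cases h : T.InComp s d e ↔ T.InComp s d e'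
  · exact Or.inl h
  · obtain ⟨a, ha, hw⟩ := pv82a_test hp h
    exact Or.inr (pv82a_arm_of hA hq hd ha hw)

open Classical in
/-- **(8.2)**: two probes joined by a dual path inside the face set `A` -/
theorem pv82a_arm [Fintype V] {A : Set D} (hA : T.FaceSet A) {q e e' : D} (hp : T.DIn A e e') :
    ‖T.obsF q e - T.obsF q e'‖ ≤ 4 * ((Finset.univ.filter fun s : V → Bool => T.ArmEv q A s).card : ℝ) / 2 ^ Fintype.card V :=
  pv82a_gen _ (pv82a_pt hA hp)

/-! ## 4. the arm event inside the disc -/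

/-- `v` is a vertex of the face of `q` -/
def Pv82aK (T : PvMap V D) (q : D) (v : V) : Prop := v = T.src q ∨ v = T.tgt q ∨ v = T.apex q

/-- an ARM of the colour of `v` made of vertices off the face of `q` (= disc vertices), from `v` to a neighbour of a vertex of the face of `q` which has the colour of `v` -/
def Pv82aEnd (T : PvMap V D) (q : D) (s : V → Bool) (v : V) : Prop :=
  Pv82aK T q v ∨ ∃ x y, Pv82aK T q y ∧ T.Adj x y ∧ s y = s v ∧ T.Join Set.univ (T.dcol q s (s v)) v x

/-- the arm event, disc form -/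
def Pv82aArmD (T : PvMap V D) (q : D) (A : Set D) (s : V → Bool) : Prop := ∃ b ∈ A, T.Occ s b ∧ Pv82aEnd T q s (T.src b) ∧ Pv82aEnd T q s (T.tgt b)

theorem pv82a_eqns_cite : True := by
  have := @Pv82aK.eq_1; have := @Pv82aEnd.eq_1; have := @Pv82aArmD.eq_1
  trivial

theorem pv82a_K_of_sf {q d : D} (h : T.SF q d) : Pv82aK T q (T.src d) := by
  rcases h with rfl | rfl | rfl
  · exact Or.inl rfl
  · exact Or.inr (Or.inl rfl)
  · exact Or.inr (Or.inr rfl)

theorem pv82a_mem_dcol {q : D} {s : V → Bool} {β : Bool} {v : V} : v ∈ T.dcol q s β ↔ ¬ Pv82aK T q v ∧ s v = β := by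
  unfold PvMap.dcol Pv82aK
  simp only [Set.mem_ofPred_eq]
  tauto

/-- **a `Mono` path to the closing face, cut at its first arrival** -/
theorem pv82a_cut {q : D} {s : V → Bool} {v w : V} (h : T.Mono s v w) (hw : Pv82aK T q w) : Pv82aEnd T q s v := by
  by_cases hv : Pv82aK T q v
  · exact Or.inl hv
  have key : ∀ w, T.Mono s v w → (¬ Pv82aK T q w ∧ T.Join Set.univ (T.dcol q s (s v)) v w) ∨
      ∃ x y, Pv82aK T q y ∧ T.Adj x y ∧ s y = s v ∧ T.Join Set.univ (T.dcol q s (s v)) v x := by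
    intro w h
    induction h with
    | refl => exact Or.inl ⟨hv, pv82a_mem_dcol.2 ⟨hv, rfl⟩, ReflTransGen.refl⟩
    | @tail b c hvb hbc ih =>
      rcases ih with ⟨hb, hj⟩ | ih
      · have hsb : s b = s v := by
          rcases ReflTransGen.cases_tail hj.2 with e | ⟨_, _, h2⟩
          · rw [e]
          · exact (pv82a_mem_dcol.1 h2.2).2
        by_cases hc : Pv82aK T q c
        · exact Or.inr ⟨b, c, hc, hbc.1, hbc.2.symm.trans hsb, hj⟩
        · refine Or.inl ⟨hc, hj.1, hj.2.tail ⟨?_, pv82a_mem_dcol.2 ⟨hc, hbc.2.symm.trans hsb⟩⟩⟩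
          obtain ⟨d, h1, h2⟩ := hbc.1
          exact ⟨d, Or.inl trivial, h1, h2⟩
      · exact Or.inr ih
  rcases key w h with h1 | h1
  · exact absurd hw h1.1
  · exact Or.inr h1

theorem pv82a_armD {q : D} {A : Set D} {s : V → Bool} (h : T.ArmEv q A s) : Pv82aArmD T q A s := by
  obtain ⟨b, hb, ho, ⟨d, hd, h1⟩, d', hd', h2⟩ := h
  exact ⟨b, hb, ho, pv82a_cut h1 (pv82a_K_of_sf hd), pv82a_cut h2 (pv82a_K_of_sf hd')⟩

open Classical in
/-- **(8.2), disc form** -/
theorem pv82a_arm_disc [Fintype V] {A : Set D} (hA : T.FaceSet A) {q e e' : D} (hp : T.DIn A e e') :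
    ‖T.obsF q e - T.obsF q e'‖ ≤ 4 * ((Finset.univ.filter fun s : V → Bool => Pv82aArmD T q A s).card : ℝ) / 2 ^ Fintype.card V :=
  pv82a_gen _ fun s d hq hd => (pv82a_pt hA hp s d hq hd).imp_right pv82a_armD

/-! ## 5. the event of record (184) and the law form -/

/-- the labels of the spokes `q`, `nxt q`, `nxt² q` of the closing face -/
noncomputable def pv82aW : Fin 3 → ℂ := ![1, (starRingEnd ℂ) pvOm, pvOm]

theorem pv82a_eqns_cite2 : True := by
  have := @pv82aW.eq_1
  trivial

theorem pv82a_W_norm (i : Fin 3) : ‖pv82aW i‖ ≤ 1 := by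
  have hc : ‖(starRingEnd ℂ) pvOm‖ = 1 := by rw [RCLike.norm_conj, pv82_om_norm]
  fin_cases i
  · simp [pv82aW]
  · simpa [pv82aW] using hc.le
  · simpa [pv82aW] using pv82_om_norm.le

/-- the integrand of 7 (`Cr/Main`) is the integrand of 184 (`Obs/ArmD`) at the labels `(1, ω̄, ω)` -/
theorem pv82a_selH (s : V → Bool) (q e : D) : T.selH s q e = pvoaG T pv82aW q e s := by
  unfold PvMap.selH pvoaG pv82aW
  simp

open Classical in
/-- **(8.2), event of record, count form** -/
theorem pv82a_rec [Fintype V] (hlink : ∀ d d', T.src d = T.src d' → ∃ n : ℕ, T.rot^[n] d = d') {q : D}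
    {Ex : Set V} (hEx : ∀ y, T.FV q y → y ∈ Ex) {t : V} {X : Set V} (hXt : ∀ c, T.src c ∈ X → ∀ x, T.FV c x → x ∈ Ex → x = t)
    {a b : V} (ha : a ∈ X) (hab : ReflTransGen (fun u v => T.Adj u v ∧ v ∈ X) a b) {e e' : D} (he : T.src e = a) (he' : T.src e' = b) :
    ‖T.obsF q e - T.obsF q e'‖ ≤ 4 * ((Finset.univ.filter fun s : V → Bool => PvoaEv T Ex t X s).card : ℝ) / 2 ^ Fintype.card V :=
  pv82a_gen _ (pvoa_test hlink hEx hXt ha hab he he')

open Classical in
/-- count ↔ law -/
theorem pv82a_law [Fintype V] (P : (V → Bool) → Prop) :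
    ((Finset.univ.filter fun s : V → Bool => P s).card : ℝ) / 2 ^ Fintype.card V = (colLaw V {s | P s}).toReal := by
  rw [pvol_fin_real, ← Set.ncard_coe_finset]
  congr 3
  ext s
  simp

/-- **(8.2), event-agnostic, law form** for the observable of `Cr/Main` -/
theorem pv82a_gen_law [Finite V] {q e e' : D} (Ev : (V → Bool) → Prop) (h : ∀ s d, T.SF q d → T.Tag s d → (T.InComp s d e ↔ T.InComp s d e') ∨ Ev s) :
    ‖T.obs q e - T.obs q e'‖ ≤ 4 * (colLaw V {s | Ev s}).toReal := by
  classical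
  cases nonempty_fintype V
  rw [pvcr_obs_eq, pvcr_obs_eq, ← pv82a_law, ← mul_div_assoc]
  exact pv82a_gen Ev h

/-- **(8.2), event of record, law form** -/
theorem pv82a_rec_law [Finite V] (hlink : ∀ d d', T.src d = T.src d' → ∃ n : ℕ, T.rot^[n] d = d') {q : D}
    {Ex : Set V} (hEx : ∀ y, T.FV q y → y ∈ Ex) {t : V} {X : Set V} (hXt : ∀ c, T.src c ∈ X → ∀ x, T.FV c x → x ∈ Ex → x = t)
    {a b : V} (ha : a ∈ X) (hab : ReflTransGen (fun u v => T.Adj u v ∧ v ∈ X) a b) {e e' : D} (he : T.src e = a) (he' : T.src e' = b) :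
    ‖T.obs q e - T.obs q e'‖ ≤ 4 * (colLaw V {s | PvoaEv T Ex t X s}).toReal :=
  pv82a_gen_law _ (pvoa_test hlink hEx hXt ha hab he he')

/-- **(8.2), event of record, transferred to the colours of an index set** `I` (`W` = the vertices which are sites, `ι` = their indices, `A` = ANY set of colourings of `I` which contains the copies of the arm event) -/
theorem pv82a_rec_le [Finite V] (hlink : ∀ d d', T.src d = T.src d' → ∃ n : ℕ, T.rot^[n] d = d') {q : D}
    {Ex : Set V} (hEx : ∀ y, T.FV q y → y ∈ Ex) {t : V} {X : Set V} (hXt : ∀ c, T.src c ∈ X → ∀ x, T.FV c x → x ∈ Ex → x = t)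
    {a b : V} (ha : a ∈ X) (hab : ReflTransGen (fun u v => T.Adj u v ∧ v ∈ X) a b) {e e' : D} (he : T.src e = a) (he' : T.src e' = b)
    {W I : Type} [Finite W] (j : W → V) (hj : Function.Injective j) (ι : W → I) (hι : Function.Injective ι) (A : Set (I → Bool))
    (hA : ∀ s, PvoaEv T Ex t X s → ∀ c : I → Bool, (∀ w, c (ι w) = s (j w)) → c ∈ A) :
    ‖T.obs q e - T.obs q e'‖ ≤ 4 * (colLaw I A).toReal := by
  cases nonempty_fintype V
  cases nonempty_fintype W
  refine (pv82a_rec_law hlink hEx hXt ha hab he he').trans ?_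
  refine mul_le_mul_of_nonneg_left ?_ (by norm_num)
  exact ENNReal.toReal_mono (MeasureTheory.measure_ne_top _ _) (pvol_le j hj ι hι _ A fun s hs => hA s hs)

/-- the arm event read on the disc sites only: the colour of the exterior vertex is forgotten -/
def Pv82aSite (T : PvMap V D) (Ex : Set V) (t : V) (X : Set V) (s : V → Bool) : Prop :=
  ∃ c x w z, T.src c ∈ X ∧ T.FV c x ∧ x ∉ Ex ∧ T.MonoOff s Ex x w ∧ w ∉ Ex ∧ z ∈ Ex ∧ z ≠ t ∧ T.Adj w z

theorem pv82a_eqns_cite3 : True := by
  have := @Pv82aSite.eq_1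
  trivial

theorem pv82a_site_of {Ex : Set V} {t : V} {X : Set V} {s : V → Bool} (h : PvoaEv T Ex t X s) : Pv82aSite T Ex t X s := by
  obtain ⟨c, x, w, z, h1, h2, h3, h4, h5, h6, h7, h8, -⟩ := h
  exact ⟨c, x, w, z, h1, h2, h3, h4, h5, h6, h7, h8⟩

/-- `MonoOff` from a disc site reads the colours of the disc sites only -/
theorem pv82a_monoOff_congr {Ex : Set V} {s s' : V → Bool} (hs : ∀ v, v ∉ Ex → s v = s' v) {x w : V} (hx : x ∉ Ex) (h : T.MonoOff s Ex x w) :
    T.MonoOff s' Ex x w ∧ w ∉ Ex := by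
  induction h with
  | refl => exact ⟨ReflTransGen.refl, hx⟩
  | tail _ hbc ih => exact ⟨ih.1.tail ⟨hbc.1, by rw [← hs _ ih.2, ← hs _ hbc.2.2]; exact hbc.2.1, hbc.2.2⟩, hbc.2.2⟩

/-- the site form of the arm event reads the colours of the disc sites only -/
theorem pv82a_site_congr {Ex : Set V} {t : V} {X : Set V} {s s' : V → Bool} (hs : ∀ v, v ∉ Ex → s v = s' v) (h : Pv82aSite T Ex t X s) :
    Pv82aSite T Ex t X s' := by
  obtain ⟨c, x, w, z, h1, h2, h3, h4, h5, h6, h7, h8⟩ := h
  exact ⟨c, x, w, z, h1, h2, h3, (pv82a_monoOff_congr hs h3 h4).1, h5, h6, h7, h8⟩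

end Claimed.Agent.R289
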