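-- KEEP
import Claimed.Agent.R289.Fan.Dict
import Claimed.Agent.R289.Fan.Cross
import Claimed.Agent.R289.Fan.ObsArm
import Claimed.Agent.R289.Obs.ArmPr
import Claimed.Agent.R289.Obs.Link

/-!
# Row 289 (S0537, Cardy for Poisson-Voronoi), box P82 (head helper91), file Fan/Exit : PROP 8.2 IN THE VOCABULARY OF THE INSTANCE      (owner helper119; prefix `pv82x_`, defs `pv82x*`)      0 sorry

TEX: 08-observable.tex, Prop 8.2 (triangle, side lines, crossing coefficient) + estimate (8.2), on the completed sphere `F.map` of `F : PvFan V D` (92, `Fan/Sphere`), closing dart `q = .s 0`;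
fan probe number `t` of `s_j`: `F.map.rot^[2 + t] (.s j)`, `0 ≤ t ≤ hi j - lo j`, head `x_{hi j - t}` (`PvFan.tgt_probe`).      Corners `pv82xW = (1, ω, ω̄)`, `w_j` = label of the spoke `.s j`.

* sec.1  (E1) `pv82x_turn` (`obsF (.s 0) = w_j obsF (.s j)`), **`pv82x_side`**: at every probe with an end at `s_j`:  `obsF (.s 0) e = w_j + x (w_{j+1} - w_j)`, `x = obsP (.s (j+1)) e ∈ [0,1]` (`pv82x_P_abs`);
         `pv82x_side0/1/2` = the EXACT shapes of the hypotheses `h01 hb / h1 / h0` of `pvok_bd` (174, `Obs/Link`) with `w0 = 1`, `w1 = ω` (`pv82x_exp : exp(iπ/3) = 1 + ω`);   `pv82x_norm_le`.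
* sec.2  (E2) `pv82xX F j t s'` = black crossing of the CLOSED DISC from the arc `lo j … hi j - t` to the arc `j + 1`;   **`pv82x_cross`**: `obsP (.s (j+1)) (probe t) ≤ #{pv82xX} / 2^|V'|`      (`pv82_cross_le` of 173 + `xb_iff` of 92).
* sec.3  disc of SITES, `F : PvFan ↥(pvfSites b) D`, names `pvaiNm F` of 66:   `pv82x_ev` (`pv82xX ⟹ pvfGlue (b, s) ∈ pvoeEv W A B`, exit event of 61),   **`pv82x_cross_site`**: `obsP (.s (j+1)) (probe t) ≤ pvQr (pvoeEv W A B) b`.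
         Hypotheses = facts of DISC only: `hdel` (edges join sites with touching cells; the hypothesis of `pvai_arm`), `hW` (disc vertices in `W`), `hA`, `hB` (the two arcs in `A`, `B`).
* sec.4  **INSTANCE-FREE FORMS** (no `Fintype` argument) for the observable `PvMap.obs` of `Cr/Main` (7), the one used by `PvCR` / `Obs/SeamCr`:   `pv82xP T d e = 4 colLaw {Tag ∧ InComp}`;
         `pv82x_obs_norm_le` (`bddR`, `bddF`), `pv82x_obs_P_abs`, `pv82x_obs_side`, `pv82x_obs_side0/1/2` (E1), `pv82x_obs_cross`, `pv82x_obs_cross0` (E2 = hypothesis `h` of `pvok_exit`), `pv82x_obs_arm` (E3 = `pvai_arm` of 66).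
USE: `S.R k z g := F.map.obs (.s 0) (probe)`, `tb k g := pv82xP F.map (.s 1) (F.map.rot^[2 + t] (.s 0))`.
-/

set_option autoImplicit false

namespace Claimed.Agent.R289

open Relation

/-- the corners of the triangle: `w_j` = the label of the spoke `.s j` of the closing face -/
noncomputable def pv82xW : Fin 3 → ℂ := ![1, pvOm, (starRingEnd ℂ) pvOm]

theorem pv82x_eqns_cite : True := by
  have := @pv82xW.eq_1
  trivial

theorem pv82x_W0 : pv82xW 0 = 1 := rfl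
theorem pv82x_W1 : pv82xW 1 = pvOm := rfl
theorem pv82x_W2 : pv82xW 2 = (starRingEnd ℂ) pvOm := rfl

/-- `w_{j+1} = ω w_j` -/
theorem pv82x_W_succ (j : Fin 3) : pv82xW (PvFan.sj j) = pv82xW j * pvOm := by
  fin_cases j
  · show pv82xW 1 = pv82xW 0 * pvOm
    rw [pv82x_W0, pv82x_W1, one_mul]
  · show pv82xW 2 = pv82xW 1 * pvOm
    rw [pv82x_W1, pv82x_W2, pvOm_sq]
  · show pv82xW 0 = pv82xW 2 * pvOm
    rw [pv82x_W0, pv82x_W2, mul_comm, pvOm_mul_conj]

/-- `exp(iπ/3) = 1 + ω` -/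
theorem pv82x_exp : Complex.exp (Real.pi * Complex.I / 3) = 1 + pvOm := by
  have e : (Real.pi * Complex.I / 3 : ℂ) = ((Real.pi / 3 : ℝ) : ℂ) * Complex.I := by
    push_cast; ring
  rw [e, Complex.exp_mul_I, ← Complex.ofReal_cos, ← Complex.ofReal_sin, Real.cos_pi_div_three, Real.sin_pi_div_three, pvOm_eq]
  apply Complex.ext <;> simp
  ring

/-! ## 1. (E1) the side lines -/

section abstract

variable {V D : Type} (F : PvFan V D)

/-- turning the closing face -/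
theorem pv82x_turn [Fintype F.V'] (j : Fin 3) (e : F.D') : F.map.obsF (.s 0) e = pv82xW j * F.map.obsF (.s j) e := by
  have h2 : F.map.obsF (.s 2) e = pvOm * F.map.obsF (.s 0) e := pv82_F_nxt (T := F.map) (.s 0) e
  have h1 : F.map.obsF (.s 1) e = pvOm * F.map.obsF (.s 2) e := pv82_F_nxt (T := F.map) (.s 2) e
  fin_cases j
  · show _ = pv82xW 0 * F.map.obsF (.s 0) e
    rw [pv82x_W0, one_mul]
  · show _ = pv82xW 1 * F.map.obsF (.s 1) e
    rw [pv82x_W1, h1, h2]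
    linear_combination (-(F.map.obsF (.s 0) e)) * pvOm_cube
  · show _ = pv82xW 2 * F.map.obsF (.s 2) e
    rw [pv82x_W2, h2]
    linear_combination (-(F.map.obsF (.s 0) e)) * pvOm_mul_conj

/-- **(E1)** side line at the fan of `s_j` -/
theorem pv82x_side [Fintype F.V'] (j : Fin 3) {e : F.D'} (he : F.map.src e = F.sv j ∨ F.map.tgt e = F.sv j) :
    F.map.obsF (.s 0) e = pv82xW j + (F.map.obsP (.s (PvFan.sj j)) e : ℂ) * (pv82xW (PvFan.sj j) - pv82xW j) := by
  have h := pv82_F_fan F.isSph (q := .s j) (e := e) he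
  have h' : F.map.obsF (.s j) e = 1 + (F.map.obsP (.s (PvFan.sj j)) e : ℂ) * (pvOm - 1) := h
  rw [pv82x_turn F j, h', pv82x_W_succ]
  ring

theorem pv82x_P_abs [Fintype F.V'] (d e : F.D') : |F.map.obsP d e| ≤ 1 := by
  rw [abs_of_nonneg (pv82_P_nonneg d e)]
  exact pv82_P_le_one F.isSph d e

theorem pv82x_norm_le [Fintype F.V'] (e : F.D') : ‖F.map.obsF (.s 0) e‖ ≤ 1 := pv82_norm_le F.isSph _ e

/-- (E1), arc `0` (between the marks `v_0`, `v_1`), shape of the fields `s01`, `coef` of `PvoBd` with `w0 = 1`, `w1 = ω` -/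
theorem pv82x_side0 [Fintype F.V'] {e : F.D'} (he : F.map.src e = F.sv 0 ∨ F.map.tgt e = F.sv 0) :
    F.map.obsF (.s 0) e = 1 + (F.map.obsP (.s 1) e : ℂ) * (pvOm - 1) := pv82x_side F 0 he

/-- (E1), arc `1`, shape of the field `s1` of `PvoBd` -/
theorem pv82x_side1 [Fintype F.V'] {e : F.D'} (he : F.map.src e = F.sv 1 ∨ F.map.tgt e = F.sv 1) :
    F.map.obsF (.s 0) e = pvOm + (F.map.obsP (.s 2) e : ℂ) * ((pvOm - 1) * Complex.exp (2 * Real.pi * Complex.I / 3)) := by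
  have h : F.map.obsF (.s 0) e = pvOm + (F.map.obsP (.s 2) e : ℂ) * ((starRingEnd ℂ) pvOm - pvOm) := pv82x_side F 1 he
  have e1 : Complex.exp (2 * Real.pi * Complex.I / 3) = pvOm := rfl
  rw [h, e1]
  linear_combination (-(F.map.obsP (.s 2) e : ℂ)) * pvOm_sq

/-- (E1), arc `2`, shape of the field `s0` of `PvoBd`: the parameter is the coefficient of `w_2` -/
theorem pv82x_side2 [Fintype F.V'] {e : F.D'} (he : F.map.src e = F.sv 2 ∨ F.map.tgt e = F.sv 2) :
    F.map.obsF (.s 0) e = 1 + (F.map.obsP (.s 2) e : ℂ) * ((pvOm - 1) * Complex.exp (Real.pi * Complex.I / 3)) := by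
  have h0 : F.map.obsN (.s 1) e = 0 := pv82_N_apex F.isSph he
  have h1 : F.map.obsP (.s 1) e = 0 := by unfold PvMap.obsP; rw [h0]; simp
  have h2 : F.map.obsP (.s 0) e + F.map.obsP (.s 2) e + F.map.obsP (.s 1) e = 1 := pv82_P_sum F.isSph (.s 0) e
  rw [h1, add_zero] at h2
  have h3 : (F.map.obsP (.s 0) e : ℂ) + (F.map.obsP (.s 2) e : ℂ) = 1 := by exact_mod_cast h2
  have h4 : F.map.obsF (.s 0) e = (F.map.obsP (.s 0) e : ℂ) + (starRingEnd ℂ) pvOm * (F.map.obsP (.s 2) e : ℂ) + pvOm * (F.map.obsP (.s 1) e : ℂ) :=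
    pv82_F_eq (T := F.map) (.s 0) e
  rw [h4, h1, pv82x_exp]
  push_cast
  linear_combination h3 - (F.map.obsP (.s 2) e : ℂ) * pvOm_sq

/-! ## 2. (E2) the coefficient at a fan probe is at most the probability of the black crossing of the closed disc -/

theorem pv82x_probe_src (j : Fin 3) (t : ℕ) : F.map.src (F.map.rot^[2 + t] (.s j)) = F.sv j := F.map.src_rot_iter _ _

theorem pv82x_probe_ne (j : Fin 3) (t : ℕ) (ht : t ≤ F.hi j - F.lo j) : F.map.rot^[2 + t] (.s j) ≠ F.map.rot (.s j) := by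
  rw [F.rot_s]
  rcases Nat.lt_or_ge t (F.hi j - F.lo j) with h | h
  · rw [F.rot_s_c j t h]
    exact fun e => by cases e
  · have e : t = F.hi j - F.lo j := le_antisymm ht h
    rw [e, F.rot_s_r]
    exact fun e => by cases e

/-- the black crossing of the closed disc from the arc `lo j … hi j - t` to the arc `j + 1`, read on a colouring of the completed sphere -/
def pv82xX (j : Fin 3) (t : ℕ) (s' : F.V' → Bool) : Prop :=
  ∃ u ∈ F.c.arc (F.lo j) (F.hi j - t), ∃ w ∈ F.c.arc (F.lo (PvFan.sj j)) (F.hi (PvFan.sj j)), F.T.Join F.c.Left {v | ∃ hv, s' (F.iv v hv) = true} u w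

theorem pv82x_eqns_cite2 : True := by
  have := @pv82xX.eq_1
  trivial

/-- **(E2), count form** -/
theorem pv82x_cross [Fintype F.V'] (hS : F.T.Simple) (j : Fin 3) (t : ℕ) (ht : t ≤ F.hi j - F.lo j) :
    F.map.obsP (.s (PvFan.sj j)) (F.map.rot^[2 + t] (.s j)) ≤ ({s' : F.V' → Bool | pv82xX F j t s'}.ncard : ℝ) / 2 ^ Fintype.card F.V' := by
  classical
  have h := pv82_cross_le F.isSph (F.simple hS) (q := .s j) (e := F.map.rot^[2 + t] (.s j)) (pv82x_probe_src F j t) (pv82x_probe_ne F j t ht)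
  have h' : 4 * F.map.obsN (.s (PvFan.sj j)) (F.map.rot^[2 + t] (.s j)) ≤ {s' : F.V' → Bool | pv82xX F j t s'}.ncard := by
    refine le_trans h (le_of_eq ?_)
    rw [← Set.ncard_coe_finset]
    congr 1
    ext s'
    simp only [Finset.coe_filter, Finset.mem_univ, true_and, Set.mem_ofPred_eq]
    exact F.xb_iff j t ht s' true
  unfold PvMap.obsP
  refine div_le_div_of_nonneg_right ?_ (by positivity)
  exact_mod_cast h'

end abstract

/-! ## 3. the completed sphere of a disc of SITES: the exit event of `PvNice` -/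

section sites

open Claims.C0465

variable {b : PvfBase} {D : Type} (F : PvFan ↥(pvfSites b) D)

/-- the two quenched sections of the row agree -/
theorem pv82x_sec (E : Set PVSample) (g : PvfBase) : pvapSec E g = pvQr E g := rfl

theorem pv82x_bk {W : Set ℂ} (hW : ∀ v ∈ F.T.VOf F.c.Left, ((v : ↥(pvfSites b)) : ℂ) ∈ W) (s : PvfIx → Bool) {v : ↥(pvfSites b)}
    (hv : v ∈ {v | ∃ hv, (s ∘ pvaiNm F) (F.iv v hv) = true}) : PvBk (pvConf (pvfGlue (b, s))) W v := by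
  obtain ⟨hv, hc⟩ := hv
  refine ⟨pvf_mem_conf_glue.2 ⟨pvaiNm F (Sum.inl ⟨v, hv⟩), pvai_nm_act F _, ?_⟩, hW v hv⟩
  rw [pvai_nm_pos]
  exact Prod.ext rfl hc.symm

/-- **a black crossing of the closed disc of sites is the exit event** (index form of 61, `Obs/Link`) -/
theorem pv82x_ev (hdel : ∀ u v : ↥(pvfSites b), F.T.Adj u v → (vorCell (pvfSites b) u ∩ vorCell (pvfSites b) v).Nonempty) (j : Fin 3) (t : ℕ) {W A B : Set ℂ}
    (hW : ∀ v ∈ F.T.VOf F.c.Left, ((v : ↥(pvfSites b)) : ℂ) ∈ W) (hA : ∀ v ∈ F.c.arc (F.lo j) (F.hi j - t), ((v : ↥(pvfSites b)) : ℂ) ∈ A)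
    (hB : ∀ v ∈ F.c.arc (F.lo (PvFan.sj j)) (F.hi (PvFan.sj j)), ((v : ↥(pvfSites b)) : ℂ) ∈ B)
    (s : PvfIx → Bool) (h : pv82xX F j t (s ∘ pvaiNm F)) : pvfGlue (b, s) ∈ pvoeEv W A B := by
  obtain ⟨u, hu, w, hw, hj⟩ := h
  rw [pvoe_iff]
  refine ⟨u, w, hA u hu, hB w hw, pv82x_bk F hW s hj.1, ?_⟩
  refine ReflTransGen.lift (fun v : ↥(pvfSites b) => (v : ℂ)) (fun x y hxy => ⟨pv82x_bk F hW s hxy.2, ?_⟩) _ _ hj.2
  rw [pvf_cfSites_glue]
  have hadj := pvai_edge_adj F hxy.1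
  refine ⟨x.2, y.2, fun e => ?_, hdel x y hadj⟩
  obtain ⟨d, h1, h2⟩ := hadj
  have : F.T.src d = F.T.tgt d := by rw [h1, h2]; exact Subtype.ext e
  exact F.T.src_ne d this.symm

/-- **(E2), instance form**: the coefficient of `w_{j+1}` at the fan probe number `t` of `s_j` is at most the quenched probability of the exit event -/
theorem pv82x_cross_site [Fintype F.V'] (hS : F.T.Simple)
    (hdel : ∀ u v : ↥(pvfSites b), F.T.Adj u v → (vorCell (pvfSites b) u ∩ vorCell (pvfSites b) v).Nonempty) (j : Fin 3) (t : ℕ) (ht : t ≤ F.hi j - F.lo j) {W A B : Set ℂ}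
    (hW : ∀ v ∈ F.T.VOf F.c.Left, ((v : ↥(pvfSites b)) : ℂ) ∈ W) (hA : ∀ v ∈ F.c.arc (F.lo j) (F.hi j - t), ((v : ↥(pvfSites b)) : ℂ) ∈ A)
    (hB : ∀ v ∈ F.c.arc (F.lo (PvFan.sj j)) (F.hi (PvFan.sj j)), ((v : ↥(pvfSites b)) : ℂ) ∈ B) :
    F.map.obsP (.s (PvFan.sj j)) (F.map.rot^[2 + t] (.s j)) ≤ pvQr (pvoeEv W A B) b :=
  (pv82x_cross F hS j t ht).trans (pvap_count (pvaiNm F) (pvai_nm_inj F) {s' | pv82xX F j t s'} (pvoeEv W A B) b (pv82x_ev F hdel j t hW hA hB))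

end sites

/-! ## 4. INSTANCE-FREE FORMS: the observable `PvMap.obs` of `Cr/Main` (integral against `colLaw`), no `Fintype` argument -/

/-- the barycentric coordinate `4 P[d is the tag, the probe e lies in the component reached through d]`, without `Fintype` -/
noncomputable def pv82xP {V D : Type} (T : PvMap V D) (d e : D) : ℝ := 4 * (colLaw V {s | T.Tag s d ∧ T.InComp s d e}).toReal

theorem pv82x_eqns_cite3 : True := by
  have := @pv82xP.eq_1
  trivial

theorem pv82x_P_eq {V D : Type} {T : PvMap V D} [Fintype V] (d e : D) : pv82xP T d e = T.obsP d e := by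
  classical
  unfold pv82xP PvMap.obsP PvMap.obsN
  rw [← pv82a_law, mul_div_assoc]
  congr!

section free

variable {V D : Type} (F : PvFan V D)

theorem pv82x_obs_norm_le (e : F.D') : ‖F.map.obs (.s 0) e‖ ≤ 1 := by
  cases nonempty_fintype F.V'
  rw [pvcr_obs_eq]
  exact pv82x_norm_le F e

theorem pv82x_obs_P_nonneg (d e : F.D') : 0 ≤ pv82xP F.map d e := by
  unfold pv82xP
  positivity

theorem pv82x_obs_P_abs (d e : F.D') : |pv82xP F.map d e| ≤ 1 := by
  cases nonempty_fintype F.V'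
  rw [pv82x_P_eq]
  exact pv82x_P_abs F d e

/-- **(E1)**, general fan -/
theorem pv82x_obs_side (j : Fin 3) {e : F.D'} (he : F.map.src e = F.sv j ∨ F.map.tgt e = F.sv j) :
    F.map.obs (.s 0) e = pv82xW j + (pv82xP F.map (.s (PvFan.sj j)) e : ℂ) * (pv82xW (PvFan.sj j) - pv82xW j) := by
  cases nonempty_fintype F.V'
  rw [pvcr_obs_eq, pv82x_P_eq]
  exact pv82x_side F j he

/-- **(E1)**, arc `0`: hypotheses `h01`, `hb` of `pvok_bd` (174, `Obs/Link`) with `w0 = 1`, `w1 = ω` -/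
theorem pv82x_obs_side0 {e : F.D'} (he : F.map.src e = F.sv 0 ∨ F.map.tgt e = F.sv 0) :
    F.map.obs (.s 0) e = 1 + (pv82xP F.map (.s 1) e : ℂ) * (pvOm - 1) := by
  cases nonempty_fintype F.V'
  rw [pvcr_obs_eq, pv82x_P_eq]
  exact pv82x_side0 F he

/-- **(E1)**, arc `1`: hypothesis `h1` of `pvok_bd` -/
theorem pv82x_obs_side1 {e : F.D'} (he : F.map.src e = F.sv 1 ∨ F.map.tgt e = F.sv 1) :
    F.map.obs (.s 0) e = pvOm + (pv82xP F.map (.s 2) e : ℂ) * ((pvOm - 1) * Complex.exp (2 * Real.pi * Complex.I / 3)) := by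
  cases nonempty_fintype F.V'
  rw [pvcr_obs_eq, pv82x_P_eq]
  exact pv82x_side1 F he

/-- **(E1)**, arc `2`: hypothesis `h0` of `pvok_bd` -/
theorem pv82x_obs_side2 {e : F.D'} (he : F.map.src e = F.sv 2 ∨ F.map.tgt e = F.sv 2) :
    F.map.obs (.s 0) e = 1 + (pv82xP F.map (.s 2) e : ℂ) * ((pvOm - 1) * Complex.exp (Real.pi * Complex.I / 3)) := by
  cases nonempty_fintype F.V'
  rw [pvcr_obs_eq, pv82x_P_eq]
  exact pv82x_side2 F he

end free

section free_sites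

open Claims.C0465

variable {b : PvfBase} {D : Type} (F : PvFan ↥(pvfSites b) D)

/-- **(E2)**: hypothesis `h` of `pvok_exit` (174) at one good geometry -/
theorem pv82x_obs_cross (hS : F.T.Simple)
    (hdel : ∀ u v : ↥(pvfSites b), F.T.Adj u v → (vorCell (pvfSites b) u ∩ vorCell (pvfSites b) v).Nonempty) (j : Fin 3) (t : ℕ) (ht : t ≤ F.hi j - F.lo j) {W A B : Set ℂ}
    (hW : ∀ v ∈ F.T.VOf F.c.Left, ((v : ↥(pvfSites b)) : ℂ) ∈ W) (hA : ∀ v ∈ F.c.arc (F.lo j) (F.hi j - t), ((v : ↥(pvfSites b)) : ℂ) ∈ A)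
    (hB : ∀ v ∈ F.c.arc (F.lo (PvFan.sj j)) (F.hi (PvFan.sj j)), ((v : ↥(pvfSites b)) : ℂ) ∈ B) :
    pv82xP F.map (.s (PvFan.sj j)) (F.map.rot^[2 + t] (.s j)) ≤ pvQr (pvoeEv W A B) b := by
  cases nonempty_fintype F.V'
  rw [pv82x_P_eq]
  exact pv82x_cross_site F hS hdel j t ht hW hA hB

/-- (E2) in the case of the paper: probe at `x_{i1 - t}` on the arc `0`, crossing from `x_0 … x_{i1 - t}` to `x_{i1} … x_{i2}` -/
theorem pv82x_obs_cross0 (hS : F.T.Simple)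
    (hdel : ∀ u v : ↥(pvfSites b), F.T.Adj u v → (vorCell (pvfSites b) u ∩ vorCell (pvfSites b) v).Nonempty) (t : ℕ) (ht : t ≤ F.i1) {W A B : Set ℂ}
    (hW : ∀ v ∈ F.T.VOf F.c.Left, ((v : ↥(pvfSites b)) : ℂ) ∈ W) (hA : ∀ v ∈ F.c.arc 0 (F.i1 - t), ((v : ↥(pvfSites b)) : ℂ) ∈ A)
    (hB : ∀ v ∈ F.c.arc F.i1 F.i2, ((v : ↥(pvfSites b)) : ℂ) ∈ B) :
    pv82xP F.map (.s 1) (F.map.rot^[2 + t] (.s 0)) ≤ pvQr (pvoeEv W A B) b :=
  pv82x_obs_cross F hS hdel 0 t ht hW hA hB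

/-- **(E3)** = `pvai_arm` of 66 for the observable of `Cr/Main` -/
theorem pv82x_obs_arm (hdel : ∀ u v : ↥(pvfSites b), F.T.Adj u v → (vorCell (pvfSites b) u ∩ vorCell (pvfSites b) v).Nonempty) (j : Fin 3) (X : Set F.V')
    (hX : X ⊆ Set.range Sum.inl) {p : ℂ} {t r : ℝ} (htr : t < r)
    (hin : ∀ x ∈ X, ∀ v : {v // v ∈ F.T.VOf F.c.Left}, (Sum.inl v = x ∨ F.map.Adj x (Sum.inl v)) → ((v.1 : ↥(pvfSites b)) : ℂ) ∈ pvapIn p t)
    (hout : ∀ l, l ≠ j → ∀ v ∈ F.c.arc (F.lo l) (F.hi l), ((v : ↥(pvfSites b)) : ℂ) ∈ pvapOut p r)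
    {a a' : F.V'} (ha : a ∈ X) (hpath : ReflTransGen (fun u v => F.map.Adj u v ∧ v ∈ X) a a') {e e' : F.D'} (he : F.map.src e = a) (he' : F.map.src e' = a') :
    ‖F.map.obs (.s 0) e - F.map.obs (.s 0) e'‖ ≤ 4 * pvapSec (pvapEv p t r) b := by
  cases nonempty_fintype F.V'
  rw [pvcr_obs_eq, pvcr_obs_eq]
  exact pvai_arm F hdel j X hX htr hin hout ha hpath he he'

end free_sites

end Claimed.Agent.R289
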